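import Crest.Agent.N111.D.Cov

/-! # Row 111: consequences of `IsLift`, `LC`, `Geo` (fill the proofs IN PLACE). -/

set_option autoImplicit false
set_option linter.unusedSectionVars false
set_option linter.unusedVariables false

namespace Crest.Agent.N111

open MeasureTheory Topology Filter Matrix
open scoped InnerProductSpace

variable {K : Type} [NormedAddCommGroup K] [InnerProductSpace ℂ K] [CompleteSpace K]

/-- `‖a‖^{it}` -/
noncomputable def lg (t : ℝ) (a : V) : ℂ := ex (t * Real.log ‖a‖)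

/-- the norm cocycle `(‖g a‖/‖a‖)^{it}` -/
noncomputable def cz (g : G) (t : ℝ) (a : V) : ℂ := ex (t * (Real.log ‖ac g a‖ - Real.log ‖a‖))

theorem bm_lg (t : ℝ) : BM (lg t) := BM.ex (measurable_const.mul measurable_norm.log)
theorem ev_lg (t : ℝ) : Ev (lg t) := fun a => by rw [lg, lg, norm_neg]
theorem norm_lg (t : ℝ) (a : V) : ‖lg t a‖ = 1 := norm_ex _
theorem lg_add (s t : ℝ) (a : V) : lg (s + t) a = lg s a * lg t a := by
  rw [lg, lg, lg, add_mul, ex_add]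
theorem conj_lg (t : ℝ) (a : V) : (starRingEnd ℂ) (lg t a) = lg (-t) a := by
  rw [lg, lg, conj_ex, neg_mul]
theorem lg_smul (t : ℝ) {z : ℝ} (hz : 0 < z) {a : V} (ha : a ≠ 0) :
    lg t (z • a) = ex (t * Real.log z) * lg t a := by
  rw [lg, lg, norm_smul, Real.norm_of_nonneg hz.le, Real.log_mul hz.ne' (norm_ne_zero_iff.2 ha),
    mul_add, ex_add]
theorem bm_cz (g : G) (t : ℝ) : BM (cz g t) :=
  BM.ex (measurable_const.mul ((measurable_ac g).norm.log.sub measurable_norm.log))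
theorem hom0_cz (g : G) (t : ℝ) : Hom0 (cz g t) := fun z hz a => by
  by_cases ha : a = 0
  · rw [ha, smul_zero]
  · rw [cz, cz, ac_smul, norm_smul, norm_smul,
      Real.log_mul (norm_ne_zero_iff.2 hz) (norm_ne_zero_iff.2 (ac_ne_zero g ha)),
      Real.log_mul (norm_ne_zero_iff.2 hz) (norm_ne_zero_iff.2 ha), add_sub_add_left_eq_sub]
theorem continuousOn_cz (g : G) (t : ℝ) : ContinuousOn (cz g t) {0}ᶜ :=
  continuous_ex.comp_continuousOn (continuousOn_const.mul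
    (((continuous_ac g).norm.continuousOn.log fun a ha =>
      norm_ne_zero_iff.2 (ac_ne_zero g ha)).sub
      (continuous_norm.continuousOn.log fun a ha => norm_ne_zero_iff.2 ha)))
theorem lg_ac (g : G) (t : ℝ) (a : V) : lg t (ac g a) = lg t a * cz g t a := by
  rw [lg, lg, cz, ← ex_add, ← mul_add, add_sub_cancel]

/-- two strongly normal maps on even functions that agree on `f · ‖·‖^{it}` agree -/
theorem IsPoly1.ext_lift {W W' : (V → ℂ) → K →L[ℂ] K} (h : IsPoly1 W) (h' : IsPoly1 W')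
    (e0 : W (ic {0}) = W' (ic {0}))
    (e : ∀ f, BM f → Hom0 f → ∀ t, W (fun a => f a * lg t a) = W' fun a => f a * lg t a) :
    ∀ f, BM f → Ev f → W f = W' f := by
  intro f hf hev
  have h0 : MeasurableSet ({0} : Set V) := measurableSet_singleton 0
  have hu := BM.ic h0.compl
  have hs : Measurable fun a : V => sg (nrm a) := measurable_sg.comp measurable_nrm
  have hl : Measurable fun a : V => Real.log ‖a‖ := measurable_norm.log
  have hF : BM fun z : V × ℝ => f (Real.exp z.2 • z.1) := hf.comp (by fun_prop)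
  have key := (h.comp (hs.prodMk hl) hu).ext_prod (h'.comp (hs.prodMk hl) hu)
    (fun p q hp hq => by
      have hv := hu.mul (hp.comp hs)
      simpa only [mul_assoc] using (h.comp hl hv).ext_ex (h'.comp hl hv)
        (e _ hv fun z hz a => by
          have e1 : ic {0}ᶜ (z • a) = ic {0}ᶜ a := by
            by_cases ha : a = 0 <;> simp [ha, hz]
          have e2 := hom0_sg_nrm p z hz a
          simp only at e2 ⊢
          rw [e1, e2]) q hq) _ hF
  have ef : f = fun a => f 0 * ic {0} a +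
      ic {0}ᶜ a * f (Real.exp (Real.log ‖a‖) • sg (nrm a)) := by
    funext a
    by_cases ha : a = 0
    · simp [ha]
    · have hn := norm_pos_iff.2 ha
      rw [Real.exp_log hn, ← sg_smul hn, hev.sg, nrm, smul_inv_smul₀ hn.ne']
      simp [ha]
  have b1 := (BM.ic h0).const_mul (f 0)
  have b2 := hu.mul (hF.comp (hs.prodMk hl))
  rw [ef, h.add _ _ b1 b2, h'.add _ _ b1 b2, h.smul _ _ (BM.ic h0), h'.smul _ _ (BM.ic h0), e0]
  exact congrArg _ key

namespace Ind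

variable {I I' : Ind K} {L : ℕ → ℝ} {Φ A : V → POVM V K} {sc : ℝ → ℝ} {x : V} {f : V → ℂ}

theorem IsLift.sym (h : I.IsLift L Φ A sc) (x : V) : (A x).Sym := ⟨h.conc x, h.zero x⟩
theorem IsLift.mem (h : I.IsLift L Φ A sc) (hx : x ≠ 0) (hf : BM f) : (A x).E f ∈ I.N := by
  obtain ⟨g, rfl⟩ := exists_ac_ev hx 0
  rw [← h.covU _ (ev_ne_zero 0) f hf g]
  exact conj_N (I.mem_N.2 fun a ha =>
    h.gen a (fun T hT => I.mem_N.1 (limSet_N hT) a ha) f hf) g
theorem IsLift.hom0 (h : I.IsLift L Φ A sc) (hx : x ≠ 0) (hf : BM f) (h0 : Hom0 f) :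
    (A x).E f = (Φ x).E f := by
  simp only [h.proj x hx f hf, h0.nrm]
theorem IsLift.commute_Φ (h : I.IsLift L Φ A sc) (hx : x ≠ 0) (hf : BM f) {g : V → ℂ} (hg : BM g) :
    Commute ((A x).E f) ((Φ x).E g) := by
  rw [h.proj x hx g hg]
  exact (h.pvm x).commute hf (hg.comp measurable_nrm)
theorem IsLift.commute_of (h : I.IsLift L Φ A sc) (hx : x ≠ 0) {S : K →L[ℂ] K}
    (hΦ : ∀ g, BM g → Commute S ((Φ x).E g)) (hl : ∀ t, Commute S ((A x).E (lg t))) (hf : BM f) :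
    Commute S ((A x).E f) := by
  have key := ((A x).isPoly1.mul S 1).ext_lift ((A x).isPoly1.mul 1 S)
    (by simp only [h.zero x, mul_zero, zero_mul])
    (fun g hg h0 t => by
      rw [h.pvm x g _ hg (bm_lg t), h.hom0 hx hg h0, mul_one, one_mul]
      exact ((hΦ g hg).mul_right (hl t)).eq) _ (hf.comp measurable_sg)
    (fun a => by simp only [sg_neg])
  rw [mul_one, one_mul, ← h.conc x f hf] at key
  exact key
theorem IsLift.sc_one (h : I.IsLift L Φ A sc) : sc 1 = 1 := by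
  have h1 := h.sc_mul 1 1 _root_.one_ne_zero _root_.one_ne_zero
  rw [mul_one] at h1
  exact (mul_eq_left₀ (h.sc_pos 1 _root_.one_ne_zero).ne').1 h1.symm
theorem IsLift.sc_neg (h : I.IsLift L Φ A sc) {z : ℝ} (hz : z ≠ 0) : sc (-z) = sc z := by
  have hm : (-1 : ℝ) ≠ 0 := by norm_num
  have h1 := h.sc_mul (-1) (-1) hm hm
  rw [neg_mul_neg, mul_one, h.sc_one] at h1
  have h2 : sc (-1) = 1 := by nlinarith [h.sc_pos (-1) hm]
  rw [← neg_one_mul, h.sc_mul _ _ hm hz, h2, one_mul]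
theorem IsLift.neg (h : I.IsLift L Φ A sc) (hx : x ≠ 0) (hf : BM f) : (A (-x)).E f = (A x).E f := by
  rw [← neg_one_smul ℝ x, h.scal x hx _ (by norm_num) f hf, h.sc_neg _root_.one_ne_zero, h.sc_one]
  simp only [one_smul]
theorem IsLift.conj_U (h : I.IsLift L Φ A sc) (hx : x ≠ 0) {q : G} {z : ℝ} (hq : ac q x = z • x)
    (hf : BM f) : I.U q * (A x).E f * I.U q⁻¹ = (A x).E fun a => f (sc z • a) := by
  rw [h.covU x hx f hf q, hq, h.scal x hx z (left_ne_zero_of_smul (hq ▸ ac_ne_zero q hx)) f hf]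
theorem IsLift.commute_U (h : I.IsLift L Φ A sc) (hx : x ≠ 0) {q : G} (hq : ac q x = x)
    (hf : BM f) : Commute ((A x).E f) (I.U q) := by
  have h1 := congrArg (· * I.U q) (h.covU x hx f hf q)
  simp only [hq, mul_assoc, ← map_mul, inv_mul_cancel, map_one, mul_one] at h1
  exact h1.symm
theorem IsLift.conj_lg (h : I.IsLift L Φ A sc) (hx : x ≠ 0) {q : G} {z : ℝ} (hq : ac q x = z • x)
    (t : ℝ) : I.U q * (A x).E (lg t) * I.U q⁻¹ = ex (t * Real.log (sc z)) • (A x).E (lg t) := by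
  have hz := h.sc_pos z (left_ne_zero_of_smul (hq ▸ ac_ne_zero q hx))
  rw [h.conj_U hx hq (bm_lg t), ← (A x).E_smul _ (bm_lg t)]
  exact (A x).E_congr_of_null (measurableSet_singleton 0) (h.zero x)
    ((bm_lg t).comp (measurable_const_smul _)) ((bm_lg t).const_mul _) fun a ha => lg_smul t hz ha
theorem IsLift.ρ_lg (h : I.IsLift L Φ A sc) (hx : x ≠ 0) (ν : Γ) (t : ℝ) :
    I.ρ ν * (A x).E (lg t) * I.ρ ν⁻¹ = (A x).E (lg t) * (Φ x).E (cz (ι ν⁻¹) t) := by
  rw [h.covρ x hx _ (bm_lg t) (ev_lg t) ν, ← h.hom0 hx (bm_cz _ t) (hom0_cz _ t),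
    ← h.pvm x _ _ (bm_lg t) (bm_cz _ t)]
  simp only [lg_ac]
theorem IsLift.lg_unitary (h : I.IsLift L Φ A sc) (x : V) (t : ℝ) :
    (A x).E (lg t) ∈ unitary (K →L[ℂ] K) :=
  (h.pvm x).ex_mem_unitary (measurable_const.mul measurable_norm.log)
theorem IsLift.star_lg (h : I.IsLift L Φ A sc) (x : V) (t : ℝ) :
    star ((A x).E (lg t)) = (A x).E (lg (-t)) := by
  simp only [(A x).E_star (bm_lg t), N111.conj_lg]
theorem IsLift.lift' (h : I.IsLift L Φ A sc) : ∃ l : Ultrafilter ℕ, (l : Filter ℕ) ≤ atTop ∧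
    ∃ t₀ > (0 : ℝ), ∀ t : ℝ, |t| < t₀ → ∃ c : ℂ, c ≠ 0 ∧ WTends l
      (fun k => I.σ k (I.m fun μ => ex (t * (Real.log (nm (ι μ)) - 2 * L k))))
      (c • (A (ev 0)).E (lg t)) := by
  obtain ⟨l, hl, hle, t₀, ht, H⟩ := h.lift
  exact ⟨Ultrafilter.of l, (Ultrafilter.of_le l).trans hle, t₀, ht, fun t htt =>
    (H t htt).imp fun c hc => ⟨hc.1, fun w v => (hc.2 w v).mono_left (Ultrafilter.of_le l)⟩⟩

/-- the levels grow linearly -/
theorem IsLift.lc_lin (h : I.IsLift L Φ A sc) (hL : Tendsto L atTop atTop) (hc : LC L sc) :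
    ∃ c > (0 : ℝ), ∃ C : ℝ, Real.log (sc (Real.exp 1)) = c ∧ (∀ n : ℤ,
      Real.log (sc (Real.exp n)) = c * n) ∧ ∀ᶠ k : ℕ in atTop, |L k - c * k| ≤ C := by
  let ψ : ℝ →+ ℝ := AddMonoidHom.mk' (fun u => Real.log (sc (Real.exp u))) fun u v => by
    rw [Real.exp_add, h.sc_mul _ _ (Real.exp_ne_zero u) (Real.exp_ne_zero v),
      Real.log_mul (h.sc_pos _ (Real.exp_ne_zero u)).ne' (h.sc_pos _ (Real.exp_ne_zero v)).ne']
  have h1 : ∀ n : ℤ, Real.log (sc (Real.exp n)) = Real.log (sc (Real.exp 1)) * n := fun n => by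
    simpa [ψ, mul_comm] using map_zsmul ψ n 1
  obtain ⟨C, hC⟩ := hc
  have h2 : ∀ᶠ k : ℕ in atTop, |L k - Real.log (sc (Real.exp 1)) * k| ≤ C / 2 :=
    hC.mono fun k hk => by
      have h3 := h1 (2 * k)
      push_cast at h3
      rw [h3, abs_le] at hk
      rw [abs_le]
      constructor <;> linarith [hk.1, hk.2]
  refine ⟨_, ?_, C / 2, rfl, h1, h2⟩
  by_contra! hneg
  obtain ⟨k, h3, h4⟩ := (h2.and (hL.eventually_gt_atTop (C / 2))).exists
  linarith [(abs_le.1 h3).2, mul_nonpos_of_nonpos_of_nonneg hneg (Nat.cast_nonneg k)]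
/-- every large real number is boundedly close to `3 L k` with `k` large -/
theorem IsLift.lc_dense (h : I.IsLift L Φ A sc) (hL : Tendsto L atTop atTop) (hc : LC L sc) :
    ∃ C : ℝ, ∀ k₀ : ℕ, ∀ᶠ u : ℝ in atTop, ∃ k ≥ k₀, |3 * L k - u| ≤ C := by
  obtain ⟨c, hc0, C, -, -, hC⟩ := h.lc_lin hL hc
  have ht : Tendsto (fun u : ℝ => ⌊u / (3 * c)⌋₊) atTop atTop :=
    tendsto_nat_floor_atTop.comp (tendsto_id.atTop_div_const (by positivity))
  refine ⟨3 * C + 3 * c, fun k₀ => ?_⟩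
  filter_upwards [ht.eventually (hC.and (eventually_ge_atTop k₀)), eventually_ge_atTop 0]
    with u hu h0
  refine ⟨_, hu.2, ?_⟩
  have h1 := (le_div_iff₀ (by positivity)).1 (Nat.floor_le (show 0 ≤ u / (3 * c) by positivity))
  have h2 := (div_lt_iff₀ (by positivity)).1 (Nat.lt_floor_add_one (u / (3 * c)))
  have h3 := abs_le.1 hu.1
  rw [abs_le]
  constructor <;> linarith [h3.1, h3.2]

end Ind

variable {I I' : Ind K} {L : ℕ → ℝ} {Φ Ψ A B : V → POVM V K} {sc sc' : ℝ → ℝ}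

theorem Geo.symm (h : Geo I I' L Φ Ψ A B sc sc') : Geo I' I L Ψ Φ B A sc' sc where
  dual := h.dual.symm
  tight := h.tight'
  tight' := h.tight
  pro := h.pro'
  pro' := h.pro
  inc := h.inc.symm
  lift := h.lift'
  lift' := h.lift
  AΨ x y hx hy hxy f g hf hg := (h.BΦ y x hy hx (dotProduct_comm x y ▸ hxy) g f hg hf).symm
  BΦ x y hx hy hxy f g hf hg := (h.AΨ y x hy hx (dotProduct_comm x y ▸ hxy) g f hg hf).symm
theorem Geo.covΨ (h : Geo I I' L Φ Ψ A B sc sc') {y : V} (hy : y ≠ 0) {f : V → ℂ} (hf : BM f)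
    (g : G) : I.U g * (Ψ y).E f * I.U g⁻¹ = (Ψ (ac (dl g) y)).E f := by
  rw [h.dual.symm.U_eq, h.dual.symm.U_eq, map_inv dl g]
  exact h.pro'.covU y hy f hf (dl g)
theorem Geo.covB (h : Geo I I' L Φ Ψ A B sc sc') {y : V} (hy : y ≠ 0) {f : V → ℂ} (hf : BM f)
    (g : G) : I.U g * (B y).E f * I.U g⁻¹ = (B (ac (dl g) y)).E f := by
  rw [h.dual.symm.U_eq, h.dual.symm.U_eq, map_inv dl g]
  exact h.lift'.covU y hy f hf (dl g)
theorem Geo.ρΨ (h : Geo I I' L Φ Ψ A B sc sc') {y : V} (hy : y ≠ 0) {f : V → ℂ} (hf : BM f)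
    (h0 : Hom0 f) (ν : Γ) :
    I.ρ ν * (Ψ y).E f * I.ρ ν⁻¹ = (Ψ y).E fun b => f (ac (ι (dl ν⁻¹)) b) := by
  rw [h.dual.symm.ρ_eq, h.dual.symm.ρ_eq, map_inv dl ν]
  exact h.pro'.covρ y hy f hf h0 (dl ν)
theorem Geo.ρB (h : Geo I I' L Φ Ψ A B sc sc') {y : V} (hy : y ≠ 0) {f : V → ℂ} (hf : BM f)
    (h0 : Ev f) (ν : Γ) :
    I.ρ ν * (B y).E f * I.ρ ν⁻¹ = (B y).E fun b => f (ac (ι (dl ν⁻¹)) b) := by
  rw [h.dual.symm.ρ_eq, h.dual.symm.ρ_eq, map_inv dl ν]
  exact h.lift'.covρ y hy f hf h0 (dl ν)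
theorem Geo.memΨ (h : Geo I I' L Φ Ψ A B sc sc') {y : V} (hy : y ≠ 0) {f : V → ℂ} (hf : BM f) :
    (Ψ y).E f ∈ I.N := h.dual.N_eq ▸ h.pro'.mem hy hf
theorem Geo.memB (h : Geo I I' L Φ Ψ A B sc sc') {y : V} (hy : y ≠ 0) {f : V → ℂ} (hf : BM f) :
    (B y).E f ∈ I.N := h.dual.N_eq ▸ h.lift'.mem hy hf

namespace Ap2

theorem cone_mono {O O' : Set V} (h : O ⊆ O') : cone O ⊆ cone O' :=
  fun _ ⟨z, hz, ha⟩ => ⟨z, hz, h ha⟩

theorem mem_cone_of_sg {O : Set V} {a : V} (h : sg a ∈ O) : a ∈ cone O := by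
  rcases sg_eq a with e | e
  · exact ⟨1, one_ne_zero, by rw [one_smul, ← e]; exact h⟩
  · exact ⟨-1, by norm_num, by rw [neg_one_smul, ← e]; exact h⟩

/-- a function supported in `O` is absorbed by the cone over `O` -/
theorem absorb {x : V} (h : I.IsLift L Φ A sc) (hx : x ≠ 0) {O : Set V} (hO : IsOpen O)
    {f : V → ℂ} (hf : BM f) (h0 : ∀ a, a ∉ O → f a = 0) :
    (A x).E f = (A x).E f * (Φ x).E (ic (cone O)) ∧
      (A x).E f = (Φ x).E (ic (cone O)) * (A x).E f := by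
  have hb : BM (ic (cone O)) := BM.ic (isOpen_cone hO).measurableSet
  have hs : BM fun a => f (sg a) := hf.comp measurable_sg
  have e : (fun a => f (sg a) * ic (cone O) a) = fun a => f (sg a) := by
    funext a
    by_cases ha : sg a ∈ O
    · rw [ic_of_mem (mem_cone_of_sg ha), mul_one]
    · rw [h0 _ ha, zero_mul]
  have e1 : (A x).E f = (A x).E f * (Φ x).E (ic (cone O)) := by
    rw [← h.hom0 hx hb (hom0_ic_cone O), h.conc x f hf, ← h.pvm x _ _ hs hb, e]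
  exact ⟨e1, e1.trans (h.commute_Φ hx hf hb).eq⟩

theorem conj_prod {n : ℕ} {u v : K →L[ℂ] K} (huv : u * v = 1) (hvu : v * u = 1)
    (F : Fin n → K →L[ℂ] K) :
    u * (List.ofFn F).prod * v = (List.ofFn fun i => u * F i * v).prod := by
  induction n with
  | zero => simpa using huv
  | succ n ih =>
    rw [List.ofFn_succ, List.ofFn_succ, List.prod_cons, List.prod_cons, ← ih]
    calc u * (F 0 * (List.ofFn fun i => F i.succ).prod) * v
        = u * F 0 * (v * u) * (List.ofFn fun i => F i.succ).prod * v := by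
          rw [hvu, mul_one, mul_assoc u (F 0)]
      _ = _ := by simp only [mul_assoc]

end Ap2

/-- lifted incidence -/
theorem Geo.incAB (h : Geo I I' L Φ Ψ A B sc sc') {x y : V} (hx : x ≠ 0) (hy : y ≠ 0)
    (hxy : x ⬝ᵥ y = 0) : Inc (A x) (B y) := by
  intro z hz
  by_contra hne
  obtain ⟨θ, hθ, O, hO, O', hO', hni⟩ := exists_ni hne
  have key : (Φ x).E (ic (cone (interior O))) * (Ψ y).E (ic (cone (interior O'))) = 0 := by
    refine Inc.mul_eq_zero (h.inc.inc x y hx hy hxy) (h.pro.proj x) (h.pro'.proj y)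
      (BM.ic (isOpen_cone isOpen_interior).measurableSet)
      (BM.ic (isOpen_cone isOpen_interior).measurableSet) (hom0_ic_cone _) (hom0_ic_cone _) hθ
      fun a b ha hb => hni a (Ap2.cone_mono interior_subset ?_) b
        (Ap2.cone_mono interior_subset ?_)
    · by_contra h'
      exact ha (ic_of_notMem h')
    · by_contra h'
      exact hb (ic_of_notMem h')
  refine hz ![interior O, interior O'] (fun k => ?_) fun f hf h0 => ?_
  · fin_cases k
    exacts [interior_mem_nhds.2 hO, interior_mem_nhds.2 hO']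
  · rw [word_two, (Ap2.absorb h.lift hx isOpen_interior (hf 0) (h0 0)).1,
      (Ap2.absorb h.lift' hy isOpen_interior (hf 1) (h0 1)).2, mul_assoc, ← mul_assoc ((Φ x).E _),
      key, zero_mul, mul_zero]

/-! ### covariant words -/

/-- the action of `Γ` on points (`false`) and lines (`true`) -/
noncomputable def act (d : Bool) (ν : Γ) (a : V) : V := ac (ι (if d then dl ν else ν)) a

theorem act_one (d : Bool) (a : V) : act d 1 a = a := by cases d <;> simp [act]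
theorem act_mul (d : Bool) (μ ν : Γ) (a : V) : act d (μ * ν) a = act d μ (act d ν a) := by
  cases d <;> simp [act, ac_mul]
theorem act_act_inv (d : Bool) (ν : Γ) (a : V) : act d ν (act d ν⁻¹ a) = a := by
  rw [← act_mul, mul_inv_cancel, act_one]
theorem act_neg (d : Bool) (ν : Γ) (a : V) : act d ν (-a) = -act d ν a := ac_neg _ _
theorem continuous_act (d : Bool) (ν : Γ) : Continuous (act d ν) := continuous_ac _

/-- covariant polymeasures -/
structure Ind.CovW (I : Ind K) {κ : Type} [Fintype κ] [DecidableEq κ] (d : κ → Bool)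
    (W : (κ → V → ℂ) → K →L[ℂ] K) : Prop where
  poly : IsPoly W
  conc : ∀ f, (∀ k, BM (f k)) → W f = W fun k a => f k (sg a)
  mem : ∀ f, (∀ k, BM (f k)) → W f ∈ I.N
  cov : ∀ f, (∀ k, BM (f k)) → (∀ k, Ev (f k)) → ∀ ν : Γ,
    I.ρ ν * W f * I.ρ ν⁻¹ = W fun k a => f k (act (d k) ν⁻¹ a)

theorem Geo.covW (h : Geo I I' L Φ Ψ A B sc sc') {n : ℕ} (d : Fin n → Bool) {x : Fin n → V}
    (hx : ∀ i, x i ≠ 0) : I.CovW d (word fun i => if d i then B (x i) else A (x i)) where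
  poly := isPoly_word _
  conc := word_sg fun i => by
    cases d i
    exacts [h.lift.sym _, h.lift'.sym _]
  mem f hf := I.word_N fun i => by
    cases d i
    exacts [h.lift.mem (hx i) (hf i), h.memB (hx i) (hf i)]
  cov f hf he ν := by
    rw [word, Ap2.conj_prod (I.ρ.mul_inv_self ν) (I.ρ.inv_mul_self ν), word]
    congr 2
    funext i
    unfold act
    cases d i
    exacts [h.lift.covρ _ (hx i) _ (hf i) (he i) ν, h.ρB (hx i) (hf i) (he i) ν]

namespace Ap2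

/-- the symmetric ball -/
def sb (w : V) (δ : ℝ) : Set V := Metric.ball w δ ∪ Metric.ball (-w) δ

theorem isOpen_sb (w : V) (δ : ℝ) : IsOpen (sb w δ) := Metric.isOpen_ball.union Metric.isOpen_ball

theorem mem_sb (w : V) {δ : ℝ} (hδ : 0 < δ) : w ∈ sb w δ := Or.inl (Metric.mem_ball_self hδ)

theorem neg_mem_ball {w a : V} {δ : ℝ} (h : a ∈ Metric.ball (-w) δ) : -a ∈ Metric.ball w δ := by
  rw [Metric.mem_ball, ← dist_neg_neg, neg_neg]
  exact h

theorem neg_mem_sb {w a : V} {δ : ℝ} (h : a ∈ sb w δ) : -a ∈ sb w δ := by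
  rcases h with h | h
  · right
    rw [Metric.mem_ball, dist_neg_neg]
    exact h
  · exact Or.inl (neg_mem_ball h)

theorem sg_notMem {O : Set V} (hs : ∀ a ∈ O, -a ∈ O) {a : V} (h : a ∉ O) : sg a ∉ O := by
  intro h'
  rcases sg_eq a with e | e
  · exact h (e ▸ h')
  · exact h (by simpa [e] using hs _ h')

theorem ev_sg (f : V → ℂ) : Ev fun a => f (sg a) := fun a => by simp only [sg_neg]

end Ap2

/-- supports are invariant up to signs -/
theorem Ind.CovW.supp_act {κ : Type} [Fintype κ] [DecidableEq κ] {d : κ → Bool}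
    {W : (κ → V → ℂ) → K →L[ℂ] K} (h : I.CovW d W) {z : κ → V} (hz : z ∈ supp W) (ν : Γ) :
    ∃ z' ∈ supp W, ∀ k, z' k = act (d k) ν (z k) ∨ z' k = -act (d k) ν (z k) := by
  by_contra hne
  have hfin : (Set.pi Set.univ fun k => ({act (d k) ν (z k), -act (d k) ν (z k)} : Set V)).Finite :=
    Set.Finite.pi fun k => Set.toFinite _
  obtain ⟨δ, hδ, hN⟩ := exists_null_ball (W := W) hfin.isCompact fun z' hz' hs =>
    hne ⟨z', hs, fun k => hz' k trivial⟩
  have hnull : NullOn W fun k => Ap2.sb (act (d k) ν (z k)) δ := by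
    refine h.poly.nullOn_of_disjoint (fun k => isSigmaCompact_of_isOpen (Ap2.isOpen_sb _ _))
      fun z' hz' hs => ?_
    have : ∀ k, ∃ w ∈ ({act (d k) ν (z k), -act (d k) ν (z k)} : Set V),
        z' k ∈ Metric.ball w δ := fun k =>
      (hz' k).elim (fun e => ⟨_, Or.inl rfl, e⟩) fun e => ⟨_, Or.inr rfl, e⟩
    choose w hw hw' using this
    exact hs _ (fun k => Metric.isOpen_ball.mem_nhds (hw' k)) (hN w fun k _ => hw k)
  refine hz (fun k => act (d k) ν ⁻¹' Ap2.sb (act (d k) ν (z k)) δ) (fun k =>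
    ((Ap2.isOpen_sb _ _).preimage (continuous_act _ _)).mem_nhds (Ap2.mem_sb _ hδ))
    fun f hf h0 => ?_
  have hs : ∀ k, BM fun a => f k (sg a) := fun k => (hf k).comp measurable_sg
  have e := h.cov _ hs (fun k => Ap2.ev_sg _) ν
  rw [hnull _ (fun k => (hs k).comp (continuous_act _ _).measurable) fun k a ha => h0 k _
    (Ap2.sg_notMem (fun b hb => ?_) (by simpa [act_act_inv] using ha))] at e
  · rw [h.conc f hf, ← one_mul (W _), ← mul_one (_ * W _), ← I.ρ.inv_mul_self ν]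
    calc _ = I.ρ ν⁻¹ * (I.ρ ν * W (fun k a => f k (sg a)) * I.ρ ν⁻¹) * I.ρ ν := by
          simp only [mul_assoc]
      _ = 0 := by rw [e, mul_zero, zero_mul]
  · rw [Set.mem_preimage, act_neg]
    exact Ap2.neg_mem_sb hb

/-- **SEP**: an operator killing all the words supported in an invariant set is zero -/
theorem Ind.CovW.sep {κ : Type} [Fintype κ] [DecidableEq κ] {d : κ → Bool}
    {W : (κ → V → ℂ) → K →L[ℂ] K} (h : I.CovW d W) {i k : Fin 3} (hik : i ≠ k)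
    (hU : ∀ f, (∀ k, BM (f k)) → ∀ b, Commute (W f) (I.U (tv hik b))) {Z : Set (κ → V)}
    (hsg : ∀ z ∈ Z, ∀ z' : κ → V, (∀ k, z' k = z k ∨ z' k = -z k) → z' ∈ Z)
    (hact : ∀ z ∈ Z, ∀ ν : Γ, (fun k => act (d k) ν (z k)) ∈ Z) {z₀ : κ → V} (hz₀ : z₀ ∈ supp W)
    (hO : ∀ᶠ z in 𝓝 z₀, ∀ z' ∈ supp W, (∀ k, z' k = z k ∨ z' k = -z k) → z' ∈ Z)
    {X : K →L[ℂ] K}
    (hX : ∀ O : κ → Set V, (∀ k, IsOpen (O k)) → (∀ z ∈ supp W, (∀ k, z k ∈ O k) → z ∈ Z) →
      ∀ f, (∀ k, BM (f k)) → (∀ k a, a ∉ O k → f k a = 0) → X * W f = 0) : X = 0 := by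
  refine I.range_lemma (𝒴 := {Y | ∃ (O : κ → Set V) (f : κ → V → ℂ), (∀ k, IsOpen (O k)) ∧
    (∀ k, ∀ a ∈ O k, -a ∈ O k) ∧ (∀ z ∈ supp W, (∀ k, z k ∈ O k) → z ∈ Z) ∧ (∀ k, BM (f k)) ∧
    (∀ k, Ev (f k)) ∧ (∀ k a, a ∉ O k → f k a = 0) ∧ Y = W f}) ?_ ?_ hik ?_ ?_ ?_
  · rintro _ ⟨O, f, h1, h2, h3, h4, h5, h6, rfl⟩ a ha
    exact ⟨_, ⟨O, f, h1, h2, h3, h4, h5, h6, rfl⟩, (I.mem_N.1 (h.mem f h4) a ha).eq⟩
  · rintro _ ⟨O, f, h1, h2, h3, h4, h5, h6, rfl⟩ μ
    refine ⟨_, ⟨fun k => act (d k) μ⁻¹ ⁻¹' O k, fun k a => f k (act (d k) μ⁻¹ a),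
      fun k => (h1 k).preimage (continuous_act _ _), fun k a ha => ?_, fun z hz hz' => ?_,
      fun k => (h4 k).comp (continuous_act _ _).measurable, fun k a => ?_,
      fun k a ha => h6 k _ ha, rfl⟩, ?_⟩
    · rw [Set.mem_preimage, act_neg]
      exact h2 k _ ha
    · obtain ⟨z', hz1, hz2⟩ := h.supp_act hz μ⁻¹
      have m1 : z' ∈ Z := h3 z' hz1 fun k => by
        rcases hz2 k with e | e <;> rw [e]
        exacts [hz' k, h2 k _ (hz' k)]
      have m2 : (fun k => act (d k) μ⁻¹ (z k)) ∈ Z := hsg z' m1 _ fun k => by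
        rcases hz2 k with e | e <;> rw [e]
        exacts [Or.inl rfl, Or.inr (neg_neg _).symm]
      have m3 := hact _ m2 μ
      simp only [act_act_inv] at m3
      exact m3
    · show f k (act (d k) μ⁻¹ (-a)) = f k (act (d k) μ⁻¹ a)
      rw [act_neg, h5 k]
    · rw [← h.cov f h4 h5 μ, mul_assoc, I.ρ.inv_mul_self, mul_one]
  · rintro _ ⟨O, f, h1, h2, h3, h4, h5, h6, rfl⟩ b
    exact ⟨_, ⟨O, f, h1, h2, h3, h4, h5, h6, rfl⟩, (hU f h4 b).eq.symm⟩
  · obtain ⟨δ, hδ, hb⟩ := Metric.eventually_nhds_iff.1 hO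
    have hn := hz₀ (fun k => Ap2.sb (z₀ k) δ) fun k =>
      (Ap2.isOpen_sb _ _).mem_nhds (Ap2.mem_sb _ hδ)
    simp only [NullOn, not_forall] at hn
    obtain ⟨f, hf, h0, hne⟩ := hn
    refine ⟨_, ⟨fun k => Ap2.sb (z₀ k) δ, fun k a => f k (sg a), fun k => Ap2.isOpen_sb _ _,
      fun k a ha => Ap2.neg_mem_sb ha, fun z hz hz' => ?_,
      fun k => (hf k).comp measurable_sg, fun k => Ap2.ev_sg _,
      fun k a ha => h0 k _ (Ap2.sg_notMem (fun b hb => Ap2.neg_mem_sb hb) ha), rfl⟩, ?_⟩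
    · have : ∀ k, ∃ w ∈ Metric.ball (z₀ k) δ, z k = w ∨ z k = -w := fun k =>
        (hz' k).elim (fun e => ⟨_, e, Or.inl rfl⟩) fun e =>
          ⟨_, Ap2.neg_mem_ball e, Or.inr (neg_neg _).symm⟩
      choose w hw hw' using this
      exact hb ((dist_pi_lt_iff hδ).2 hw) z hz hw'
    · rwa [← h.conc f hf]
  · rintro _ ⟨O, f, h1, h2, h3, h4, h5, h6, rfl⟩
    exact hX O h1 h3 f h4 h6

end Crest.Agent.N111
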