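import Crest.Agent.N111.Api.Bes
import Crest.Agent.N111.D.Cov1
import Crest.Agent.N111.Lib.Geo
import Crest.Agent.N111.Lib.MClass
import Crest.Agent.N111.Lib.POVM3
import Crest.Agent.N111.I.Rel
import Crest.Agent.N111.E.Api
import Crest.Agent.N111.D.Mid
import Crest.Agent.N111.D.Inc

-- ▼ part N111/Main
section

/-!
# Row 111: assembly of `S0146` from the module statements (helper4).
-/

set_option autoImplicit false
set_option linter.unusedSectionVars false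
set_option linter.unusedVariables false

namespace Crest.Agent.N111

open MeasureTheory Topology Filter Matrix
open scoped InnerProductSpace
open Crest.OperatorAlgebra

variable {K : Type} [NormedAddCommGroup K] [InnerProductSpace ℂ K] [CompleteSpace K]

namespace Ind

variable {I I' : Ind K}

theorem IsTw.U_eq (h : I.IsTw I') (g : G) : I'.U g = I.U g := by
  rw [h.U, one_mul, mul_one]; rfl
theorem IsTw.ρ_eq (h : I.IsTw I') (μ : Γ) : I'.ρ μ = I.ρ (dl μ) := by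
  rw [h.ρ, one_mul, mul_one]
theorem IsTw.ρ_eq' (h : I.IsTw I') (μ : Γ) : I.ρ μ = I'.ρ (dl μ) := by
  rw [h.ρ_eq, RelAux.dl_dl]
theorem IsTw.C_eq (h : I.IsTw I') : I'.C = I.C := by
  rw [h.C]; simp only [one_mul, mul_one, Set.image_id']
theorem IsTw.N_eq (h : I.IsTw I') : I'.N = I.N := by rw [N, N, h.C_eq]
theorem IsTw.Q_eq (h : I.IsTw I') : I'.Q = I.Q := by
  ext T
  refine and_congr (by rw [h.N_eq]) ⟨fun hT μ => ?_, fun hT μ => ?_⟩
  · rw [h.ρ_eq']; exact hT _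
  · rw [h.ρ_eq]; exact hT _
theorem IsTw.j_eq (h : I.IsTw I') : I'.j = I.j := by rw [h.j, one_mul, mul_one]
theorem IsTw.ξ_eq (h : I.IsTw I') : I'.ξ = I.ξ := h.ξ
theorem IsTw.y_eq (h : I.IsTw I') (g : G) : I'.y g = I.y g := by
  have h1 : star (I'.y g) - star (I.y g) = 0 := by
    refine Q_eq_zero (I := I) (sub_Q (star_Q (h.Q_eq ▸ I'.y_Q g)) (star_Q (I.y_Q g))) ?_
    have := I'.star_y_ξ g
    rw [h.ξ_eq, h.U_eq] at this
    rw [_root_.sub_apply, this, I.star_y_ξ, sub_self]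
  exact star_injective (sub_eq_zero.1 h1)

theorem dl_ne_one {μ : Γ} (h : μ ≠ 1) : dl μ ≠ 1 := fun e => h (by
  rw [← RelAux.dl_dl μ, e, map_one])

theorem IsTw.out (h : I.IsTw I') {P : G → K →L[ℂ] K} (hP : I'.Out P) : I.Out P where
  sa := hP.sa
  idem := hP.idem
  cov a g := by simpa only [h.U_eq] using hP.cov a g
  wand g μ hμ := by rw [h.ρ_eq']; exact hP.wand g _ (dl_ne_one hμ)
  ne := hP.ne
  mem g := h.N_eq ▸ hP.mem g
  gen S hU hρ hj := hP.gen S (fun g => by rw [h.U_eq]; exact hU g)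
    (fun μ => by rw [h.ρ_eq]; exact hρ _) (by rw [h.j_eq]; exact hj)

theorem IsTw.two (h : I.IsTw I') {s : K →L[ℂ] K} (hs : I.Two s) : I'.Two s where
  s_sa := hs.s_sa
  s_s := hs.s_s
  s_U g := by rw [h.U_eq]; exact hs.s_U g
  s_y g := by rw [h.y_eq]; exact hs.s_y g
  s_ξ := by rw [h.ξ_eq]; exact hs.s_ξ
  ρ_C μ := by rw [h.ρ_eq, h.C_eq]; exact hs.ρ_C _
  Cρ a ha μ := by
    rw [h.C_eq] at ha
    obtain ⟨a', ha', μ', e⟩ := hs.Cρ a ha (dl μ)
    exact ⟨a', h.C_eq ▸ ha', dl μ', by rw [h.ρ_eq, e, h.ρ_eq']⟩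
  jj := by rw [h.j_eq]; exact hs.jj
  jρj μ hμ := by rw [h.j_eq, h.ρ_eq]; exact hs.jρj _ (dl_ne_one hμ)
  j_j := by rw [h.j_eq]; exact hs.j_j

end Ind

theorem x4_ne_zero (i : Fin 4) : x4 i ≠ 0 := by
  fin_cases i
  · exact ev_ne_zero 0
  · exact ev_ne_zero 1
  · exact ev_ne_zero 2
  · intro h
    have := congrFun h 0
    simp [x4, ev] at this

theorem commute_word {Y : Type} [MeasurableSpace Y] {n m : ℕ} {P : Fin n → POVM Y K}
    {Q : Fin m → POVM Y K} {f : Fin n → Y → ℂ} {g : Fin m → Y → ℂ}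
    (h : ∀ i k, Commute ((P i).E (f i)) ((Q k).E (g k))) : Commute (word P f) (word Q g) := by
  refine Commute.list_prod_left _ _ fun a ha => Commute.list_prod_right _ _ fun b hb => ?_
  obtain ⟨i, rfl⟩ := List.mem_ofFn.1 ha
  obtain ⟨k, rfl⟩ := List.mem_ofFn.1 hb
  exact h i k

/-- the boundary geometry of a tight structure -/
theorem exists_geo (hRel : RelStmt) (hTR : TightRelStmt) (hPro : ProStmt) (hLift : LiftStmt)
    (hLC : LiftCommStmt) (I : Ind K) {L : ℕ → ℝ} (hT : I.Tight L) :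
    ∃ I' Φ Ψ A B sc sc', Geo I I' L Φ Ψ A B sc sc' := by
  obtain ⟨I', hI'⟩ := hRel K I dl dl 1 (Or.inr rfl) (Or.inr rfl) (star_one _) (one_mul _)
  have hd : I.IsDual I' := hI'
  have hT' : I'.Tight L := (hTR K I I' L hT).1 hd
  obtain ⟨Φ, Ψ, hΦ, hΨ, hinc⟩ := hPro K I I' L hd hT hT'
  obtain ⟨A, sc, hA⟩ := hLift K I L Φ hT hΦ
  obtain ⟨B, sc', hB⟩ := hLift K I' L Ψ hT' hΨ
  refine ⟨I', Φ, Ψ, A, B, sc, sc', hd, hT, hT', hΦ, hΨ, hinc, hA, hB,
    hLC K I I' L Φ Ψ A sc hd hT hT' hΦ hΨ hinc hA, fun x y hx hy e f h hf hh => ?_⟩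
  exact (hLC K I' I L Ψ Φ B sc' hd.symm hT' hT hΨ hΦ hinc.symm hB y x hy hx
    ((dotProduct_comm _ _).trans e) h f hh hf).symm

/-- a tight structure among `I` and its twist -/
theorem exists_tight (hRel : RelStmt) (hTight : TightStmt) (hAmen : AmenStmt) (I : Ind K)
    (hC : I.Conc) (hP : I.PP) : ∃ (I₀ : Ind K) (L : ℕ → ℝ), I₀.Tight L ∧
      (∀ P, I₀.Out P → I.Out P) ∧ ∀ s, I.Two s → I₀.Two s := by
  obtain ⟨L, hL | hL⟩ := hTight K I hC (hAmen K I hP)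
  · exact ⟨I, L, hL, fun _ h => h, fun _ h => h⟩
  · obtain ⟨I', hI'⟩ := hRel K I (MonoidHom.id G) dl 1 (Or.inl rfl) (Or.inr rfl) (star_one _)
      (one_mul _)
    have ht : I.IsTw I' := hI'
    exact ⟨I', L, hL I' ht, fun _ h => ht.out h, fun _ h => ht.two h⟩

theorem main (hRel : RelStmt) (hTR : TightRelStmt) (hTight : TightStmt) (hAmen : AmenStmt)
    (hConc : ConcStmt) (hPro : ProStmt) (hLift : LiftStmt) (hLC : LiftCommStmt) (hCom : ComStmt)
    (hOut : OutStmt) (hUniq : UniqStmt) (hCross : CrossStmt) (hInd : IndStmt) (hPP : PPStmt)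
    (hTwo : TwoStmt) (hCI : CoreIStmt) (hCII : CoreIIStmt) (hRI : RedIStmt) (hRII : RedIIStmt) :
    (∀ p ∈ groupVonNeumann Γ, p * p = p → star p = p → p ≠ 1 →
      ¬ ∃ φ, IsStarAlgIso (groupVonNeumann Γ) (corner (groupVonNeumann Γ) p) φ) ∧
    ∀ (Λ : Type) [Group Λ] [Countable Λ] [Infinite Λ], IsICC Λ →
      (∃ φ, IsStarAlgIso (groupVonNeumann Λ) (groupVonNeumann Γ) φ) → Nonempty (Λ ≃* Γ) := by
  refine ⟨fun p hp h1 h2 h3 hφ => ?_, fun Λ _ _ _ hΛ hφ => ?_⟩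
  · obtain ⟨H, _, _, _, S, hS⟩ := hRI p hp h1 h2 h3 hφ
    obtain ⟨j₀, I, hI⟩ := hInd Unit H S ()
    obtain ⟨I₀, L, hT, hO, -⟩ := exists_tight hRel hTight hAmen I (hConc _ _ S () j₀ I hI)
      (hPP _ _ S () j₀ I hI)
    obtain ⟨I', Φ, Ψ, A, B, sc, sc', hG⟩ := exists_geo hRel hTR hPro hLift hLC I₀ hT
    obtain ⟨O, -, hout⟩ := hOut _ I₀ I' L Φ Ψ A B sc sc' hG (hCom _ I₀ I' L Φ Ψ A B sc sc' hG)
    exact absurd (hCI H S j₀ I _ hI (hO _ hout)) hS.not_ge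
  · obtain ⟨H, _, _, _, S, s, hF, hend⟩ := hRII Λ hΛ hφ
    obtain ⟨j₀, I, hI⟩ := hInd (Fin 3) H S 1
    have h2 : I.Two (amp s) := hTwo H S s j₀ I hF hI
    obtain ⟨I₀, L, hT, hO, h2'⟩ := exists_tight hRel hTight hAmen I (hConc _ _ S 1 j₀ I hI)
      (hPP _ _ S 1 j₀ I hI)
    have h0 := h2' _ h2
    obtain ⟨I', Φ, Ψ, A, B, sc, sc', hG⟩ := exists_geo hRel hTR hPro hLift hLC I₀ hT
    obtain ⟨O, hOm, hout⟩ := hOut _ I₀ I' L Φ Ψ A B sc sc' hG (hCom _ I₀ I' L Φ Ψ A B sc sc' hG)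
    obtain ⟨I₃, hI₃⟩ := hRel _ I₀ (MonoidHom.id G) (MonoidHom.id Γ) (amp s) (Or.inl rfl)
      (Or.inl rfl) h0.s_sa h0.s_s
    have hc : I₀.IsConj I₃ (amp s) := hI₃
    have hT₃ : I₃.Tight L := (hTR _ I₀ I₃ L hT).2 _ h0.s_sa h0.s_s hc
    obtain ⟨I₃', Φ₃, Ψ₃, A₃, B₃, sc₃, sc₃', hG₃⟩ := exists_geo hRel hTR hPro hLift hLC I₃ hT₃
    have hX := hCross _ I₀ I₃ I₃' (amp s) L Φ Φ₃ Ψ₃ A₃ B₃ sc₃ sc₃' h0 hc hT hG.pro hG₃
      (hCom _ I₃ I₃' L Φ₃ Ψ₃ A₃ B₃ sc₃ sc₃' hG₃)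
    have hU := hUniq _ I₀ I₃ (amp s) Φ Φ₃ h0.s_sa h0.s_s h0.s_U hc hG.pro hG₃.pro
    have hu : amp s ∈ unitary (L2X H →L[ℂ] L2X H) :=
      ⟨by rw [h0.s_sa, h0.s_s], by rw [h0.s_sa, h0.s_s]⟩
    obtain ⟨𝒯, h𝒯⟩ := hCII H S s j₀ I (P4 Φ O) hF hI (hO _ hout) fun g g' => by
      have e : amp s * P4 Φ O g' * amp s = P4 Φ₃ O g' := by
        have := word_conj (P := fun i => Φ (ac g' (x4 i))) (Q := fun i => Φ₃ (ac g' (x4 i))) hu
          (fun i f hf => by rw [h0.s_sa, hU _ (ac_ne_zero _ (x4_ne_zero i)) f hf])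
          (f := fun i => ic (O i)) fun i => BM.ic (hOm i)
        rwa [h0.s_sa] at this
      rw [e]
      exact commute_word fun i k => hX _ _ (ac_ne_zero _ (x4_ne_zero i))
        (ac_ne_zero _ (x4_ne_zero k)) _ _ (BM.ic (hOm i)) (BM.ic (hOm k))
    exact hend j₀ 𝒯 hI.hj h𝒯

end Crest.Agent.N111
end

-- ▼ part N111/T/Ms
section

/-! # Row 111, `TightStmt` (helper6), part 1: masses, medians -/

set_option autoImplicit false
set_option linter.unusedSectionVars false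

namespace Crest.Agent.N111.T

open Topology Filter Set

variable {K : Type} [NormedAddCommGroup K] [InnerProductSpace ℂ K] [CompleteSpace K] (I : Ind K)

/-- the mass of `η` against `F` -/
noncomputable def av (η : K) (F : Γ → ℝ) : ℝ := ∑' μ, F μ * ‖I.j (I.ρ μ⁻¹ η)‖ ^ 2

/-- the mass of a set -/
noncomputable def pm (η : K) (A : Set Γ) : ℝ := av I η (A.indicator fun _ => 1)

/-- bounded -/
def Bd (F : Γ → ℝ) : Prop := ∃ C, ∀ μ, |F μ| ≤ C

variable {I} {η : K} {F F' : Γ → ℝ} {A B : Set Γ}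

theorem Bd.sm (h : Bd F) : Summable fun μ => F μ * ‖I.j (I.ρ μ⁻¹ η)‖ ^ 2 := by
  obtain ⟨C, h⟩ := h
  refine .of_norm_bounded ((I.pars η).summable.mul_left C) fun μ => ?_
  rw [norm_mul, Real.norm_of_nonneg (sq_nonneg _)]
  exact mul_le_mul_of_nonneg_right (h μ) (sq_nonneg _)

theorem Bd.ind (A : Set Γ) : Bd (A.indicator fun _ => 1) :=
  ⟨1, fun μ => by by_cases h : μ ∈ A <;> simp [h]⟩

theorem Bd.icc (h : ∀ μ, F μ ∈ Icc (0 : ℝ) 1) : Bd F :=
  ⟨1, fun μ => abs_le.2 ⟨by linarith [(h μ).1], (h μ).2⟩⟩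

theorem Bd.add (h : Bd F) (h' : Bd F') : Bd fun μ => F μ + F' μ := by
  obtain ⟨C, h⟩ := h
  obtain ⟨D, h'⟩ := h'
  exact ⟨C + D, fun μ => (abs_add_le _ _).trans (add_le_add (h μ) (h' μ))⟩

theorem Bd.mul (h : Bd F) (h' : Bd F') : Bd fun μ => F μ * F' μ := by
  obtain ⟨C, h⟩ := h
  obtain ⟨D, h'⟩ := h'
  exact ⟨C * D, fun μ => (abs_mul _ _).trans_le
    (mul_le_mul (h μ) (h' μ) (abs_nonneg _) ((abs_nonneg _).trans (h μ)))⟩

theorem Bd.const (c : ℝ) : Bd fun _ => c := ⟨|c|, fun _ => le_rfl⟩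

theorem av_mono (h : Bd F) (h' : Bd F') (e : ∀ μ, F μ ≤ F' μ) : av I η F ≤ av I η F' :=
  h.sm.tsum_le_tsum (fun μ => mul_le_mul_of_nonneg_right (e μ) (sq_nonneg _)) h'.sm

theorem av_add (h : Bd F) (h' : Bd F') : av I η (fun μ => F μ + F' μ) = av I η F + av I η F' := by
  simp only [av, add_mul]
  exact h.sm.tsum_add h'.sm

theorem av_mul (c : ℝ) : av I η (fun μ => c * F μ) = c * av I η F := by
  simp only [av, mul_assoc, tsum_mul_left]

theorem av_const (c : ℝ) : av I η (fun _ => c) = c * ‖η‖ ^ 2 := by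
  simp only [av, tsum_mul_left, (I.pars η).tsum_eq]

theorem av_nonneg (e : ∀ μ, 0 ≤ F μ) : 0 ≤ av I η F :=
  tsum_nonneg fun μ => mul_nonneg (e μ) (sq_nonneg _)

theorem pm_nonneg : 0 ≤ pm I η A := av_nonneg fun _ => indicator_nonneg (fun _ _ => zero_le_one) _

theorem pm_le (C : Set Γ) (h : C ⊆ A ∪ B) : pm I η C ≤ pm I η A + pm I η B := by
  rw [pm, pm, pm, ← av_add (.ind _) (.ind _)]
  refine av_mono (.ind _) ((Bd.ind _).add (.ind _)) fun μ => ?_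
  have := @h μ
  by_cases a : μ ∈ A <;> by_cases b : μ ∈ B <;> by_cases c : μ ∈ C <;> simp_all

theorem pm_mono (h : A ⊆ B) : pm I η A ≤ pm I η B :=
  av_mono (.ind _) (.ind _) (indicator_le_indicator_of_subset h fun _ => zero_le_one)

theorem pm_compl (A : Set Γ) : pm I η A + pm I η Aᶜ = ‖η‖ ^ 2 := by
  rw [pm, pm, ← av_add (.ind _) (.ind _), ← one_mul (‖η‖ ^ 2), ← av_const (I := I)]
  congr 1
  funext μ
  by_cases h : μ ∈ A <;> simp [h]

/-- `F ≤ ε` off `A` -/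
theorem av_le (h : Bd F) {C ε : ℝ} (hε : 0 ≤ ε) (hC : ∀ μ, F μ ≤ C) (e : ∀ μ ∉ A, F μ ≤ ε) :
    av I η F ≤ C * pm I η A + ε * ‖η‖ ^ 2 := by
  rw [pm, ← av_mul, ← av_const (I := I), ← av_add ((Bd.const _).mul (.ind _)) (.const _)]
  refine av_mono h (((Bd.const _).mul (.ind _)).add (.const _)) fun μ => ?_
  by_cases a : μ ∈ A
  · simpa [a] using (hC μ).trans (le_add_of_nonneg_right hε)
  · simpa [a] using e μ a

theorem pm_finset (s : Finset Γ) : pm I η s = ∑ μ ∈ s, ‖I.j (I.ρ μ⁻¹ η)‖ ^ 2 := by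
  rw [pm, av, tsum_eq_sum (s := s) fun μ h => by simp [h]]
  exact Finset.sum_congr rfl fun μ h => by simp [h]

theorem tendsto_pm_compl (η : K) :
    Tendsto (fun s : Finset Γ => pm I η (s : Set Γ)ᶜ) atTop (𝓝 0) := by
  have := (I.pars η).const_sub (‖η‖ ^ 2)
  rw [sub_self] at this
  refine this.congr fun s => ?_
  rw [← pm_finset, ← pm_compl (I := I) (s : Set Γ)]
  ring

theorem sq_av_le (h : ∀ μ, F μ ∈ Icc (0 : ℝ) 1) {M : ℝ} (hM : 0 < M) (hA : pm I η A ≤ M / 2)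
    (e : ∀ μ ∉ A, F μ = 0) : 2 * av I η F ^ 2 ≤ M * av I η fun μ => F μ ^ 2 := by
  have h2 : Bd fun μ => F μ ^ 2 := by simpa only [sq] using (Bd.icc h).mul (.icc h)
  obtain ⟨t, ht⟩ : ∃ t, t = 2 * av I η F / M := ⟨_, rfl⟩
  have : av I η (fun μ => 2 * t * F μ) ≤
      av I η fun μ => F μ ^ 2 + t ^ 2 * A.indicator (fun _ => 1) μ :=
    av_mono ((Bd.const _).mul (.icc h)) (h2.add ((Bd.const _).mul (.ind _))) fun μ => by
      by_cases a : μ ∈ A
      · simp only [a, indicator_of_mem]; nlinarith [sq_nonneg (F μ - t)]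
      · simp [a, e μ a]
  rw [av_add h2 ((Bd.const _).mul (.ind _)), av_mul, av_mul] at this
  have h3 : av I η F = t * M / 2 := by rw [ht]; field_simp
  have h4 := mul_le_mul_of_nonneg_left hA (sq_nonneg t)
  rw [h3] at this ⊢
  unfold pm at h4
  nlinarith

/-- two-sided Lipschitz -/
def Lip (w : Γ → ℝ) : Prop :=
  ∀ ν, ∃ D, ∀ μ, |w (ν * μ) - w μ| ≤ D ∧ |w (μ * ν) - w μ| ≤ D

theorem Lip.neg {w : Γ → ℝ} (h : Lip w) : Lip fun μ => -w μ := fun ν => by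
  simpa only [← neg_sub', abs_neg] using h ν

theorem Lip.add {w w' : Γ → ℝ} (h : Lip w) (h' : Lip w') : Lip fun μ => w μ + w' μ := fun ν => by
  obtain ⟨D, h⟩ := h ν
  obtain ⟨D', h'⟩ := h' ν
  refine ⟨D + D', fun μ => ⟨?_, ?_⟩⟩ <;> rw [add_sub_add_comm] <;> refine (abs_add_le _ _).trans ?_
  exacts [add_le_add (h μ).1 (h' μ).1, add_le_add (h μ).2 (h' μ).2]

/-- clamp -/
noncomputable def cl (w : Γ → ℝ) (c : ℝ) (n : ℕ) (μ : Γ) : ℝ := max 0 (min 1 ((w μ - c) / (n + 1)))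

theorem cl_mem (w : Γ → ℝ) (c : ℝ) (n : ℕ) (μ : Γ) : cl w c n μ ∈ Icc (0 : ℝ) 1 :=
  ⟨le_max_left _ _, max_le zero_le_one (min_le_left _ _)⟩

theorem cl_zero {w : Γ → ℝ} {c : ℝ} {n : ℕ} {μ : Γ} (h : w μ ≤ c) : cl w c n μ = 0 :=
  max_eq_left ((min_le_right _ _).trans (div_nonpos_of_nonpos_of_nonneg (by linarith)
    (by positivity)))

theorem cl_one {w : Γ → ℝ} {c : ℝ} {n : ℕ} {μ : Γ} (h : c + (n + 1) ≤ w μ) : cl w c n μ = 1 := by
  rw [cl, min_eq_left ((one_le_div (by positivity)).2 (by linarith)), max_eq_right zero_le_one]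

theorem Lip.slow {w : Γ → ℝ} (h : Lip w) (c : ℕ → ℝ) (ν : Γ) (ε : ℝ) (hε : 0 < ε) :
    ∀ᶠ n in atTop, ∀ μ, |cl w (c n) n (ν * μ) - cl w (c n) n μ| ≤ ε ∧
      |cl w (c n) n (μ * ν) - cl w (c n) n μ| ≤ ε := by
  obtain ⟨D, h⟩ := h ν
  filter_upwards [eventually_ge_atTop ⌈D / ε⌉₊] with n hn μ
  have h1 : D ≤ ε * (n + 1) := by
    have := (Nat.le_ceil _).trans (Nat.cast_le.2 hn)
    rw [div_le_iff₀ hε] at this
    linarith
  have key : ∀ a b, |w a - w b| ≤ D → |cl w (c n) n a - cl w (c n) n b| ≤ ε := fun a b e => by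
    refine (abs_max_sub_max_le_max _ _ _ _).trans (max_le (by simpa using hε.le)
      ((abs_min_sub_min_le_max _ _ _ _).trans (max_le (by simpa using hε.le) ?_)))
    rw [← sub_div, abs_div, abs_of_pos (a := (n + 1 : ℝ)) (by positivity), sub_sub_sub_cancel_right,
      div_le_iff₀ (by positivity)]
    exact e.trans h1
  exact ⟨key _ _ (h μ).1, key _ _ (h μ).2⟩

/-- the vector `U(α_k) ξ` -/
noncomputable def xi (I : Ind K) (k : ℕ) : K := I.U (al k) I.ξ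

theorem norm_xi (k : ℕ) : ‖xi I k‖ = ‖I.ξ‖ := I.U.norm_map _ _

theorem M_pos (I : Ind K) : 0 < ‖I.ξ‖ ^ 2 := pow_pos (norm_pos_iff.2 I.ξ_ne) 2

theorem one_side (hC : I.Conc) {w : Γ → ℝ} (hw : Lip w) {c : ℕ → ℝ}
    (hc : ∀ k, pm I (xi I k) {μ | c k < w μ} ≤ ‖I.ξ‖ ^ 2 / 2) {ε : ℝ} (hε : 0 < ε) :
    ∃ R, ∀ k, pm I (xi I k) {μ | c k + R ≤ w μ} ≤ ε := by
  by_contra h
  push Not at h
  choose k hk using fun n : ℕ => h (n + 1)
  have h1 := hC k (fun n => cl w (c (k n)) n) (fun n => cl_mem _ _ _) (hw.slow _)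
  have hM := M_pos I
  obtain ⟨n, hn⟩ := (h1.eventually (gt_mem_nhds (show 0 < ‖I.ξ‖ ^ 2 * ε / 2 by positivity))).exists
  have h2 := sq_av_le (cl_mem w (c (k n)) n) hM (hc (k n)) fun μ hμ => cl_zero (not_lt.1 hμ)
  have h3 : pm I (xi I (k n)) _ ≤ av I (xi I (k n)) fun μ => cl w (c (k n)) n μ ^ 2 :=
    av_mono (.ind {μ | c (k n) + (n + 1) ≤ w μ})
      (by simpa only [sq] using (Bd.icc (cl_mem _ _ _)).mul (.icc (cl_mem _ _ _))) fun μ => by
      by_cases a : μ ∈ {μ | c (k n) + (n + 1) ≤ w μ}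
      · rw [indicator_of_mem a, cl_one a, one_pow]
      · rw [indicator_of_notMem a]; positivity
  have h4 := mul_lt_mul_of_pos_left ((hk n).trans_le h3) hM
  change _ * av I (xi I (k n)) _ - av I (xi I (k n)) _ ^ 2 < _ at hn
  linarith

theorem exists_center (hC : I.Conc) {w : Γ → ℝ} (hw : Lip w) (h0 : ∀ μ, 0 ≤ w μ) :
    ∃ c : ℕ → ℝ, ∀ ε > 0, ∃ R, ∀ k, pm I (xi I k) {μ | R < |w μ - c k|} ≤ ε := by
  classical
  have hM := M_pos I
  have h1 : ∀ k, ∃ n : ℕ, pm I (xi I k) {μ | (n : ℝ) < w μ} ≤ ‖I.ξ‖ ^ 2 / 2 := fun k => by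
    obtain ⟨s, hs⟩ := ((tendsto_pm_compl (I := I) (xi I k)).eventually
      (gt_mem_nhds (half_pos hM))).exists
    obtain ⟨b, hb⟩ := (s.finite_toSet.image w).bddAbove
    exact ⟨⌈b⌉₊, (pm_mono fun μ hμ h => (hb (mem_image_of_mem w h)).not_gt
      ((Nat.le_ceil b).trans_lt hμ)).trans hs.le⟩
  refine ⟨fun k => Nat.find (h1 k), fun ε hε => ?_⟩
  obtain ⟨R, hR⟩ := one_side hC hw (fun k => Nat.find_spec (h1 k)) (half_pos hε)
  obtain ⟨R', hR'⟩ := one_side hC hw.neg (c := fun k => 1 - Nat.find (h1 k)) (fun k => by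
    rcases e : Nat.find (h1 k) with _ | n
    · refine (pm_mono (B := ((∅ : Finset Γ) : Set Γ)) fun μ hμ => ?_).trans ?_
      · have := h0 μ
        simp only [mem_ofPred_eq, Nat.cast_zero] at hμ
        linarith
      · rw [pm_finset, Finset.sum_empty]; positivity
    · have h2 := Nat.find_min (h1 k) (m := n) (by omega)
      have h3 := pm_compl (I := I) (η := xi I k) {μ | (n : ℝ) < w μ}
      rw [norm_xi] at h3
      refine (pm_mono (B := {μ | (n : ℝ) < w μ}ᶜ) fun μ hμ h => ?_).trans (by linarith)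
      simp only [mem_ofPred_eq, Nat.cast_succ] at hμ h
      linarith) (half_pos hε)
  refine ⟨|R| + |R'| + 1, fun k => (pm_le _ fun μ hμ => ?_).trans
    ((add_le_add (hR k) (hR' k)).trans_eq (add_halves ε))⟩
  simp only [mem_ofPred_eq, mem_union, lt_abs] at hμ ⊢
  have := le_abs_self R
  have := le_abs_self R'
  have := abs_nonneg R
  have := abs_nonneg R'
  exact hμ.imp (fun h => by linarith) fun h => by linarith

end Crest.Agent.N111.T
end

-- ▼ part N111/T/Op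
section

/-! # Row 111, `TightStmt` (helper6), part 2: the position operators, finite propagation -/

set_option autoImplicit false
set_option linter.unusedSectionVars false

namespace Crest.Agent.N111.T

open Topology Filter Set
open scoped InnerProductSpace

variable {K : Type} [NormedAddCommGroup K] [InnerProductSpace ℂ K] [CompleteSpace K]

theorem exists_lp {a : Γ → K} {A : ℝ} (hA : 0 ≤ A) (h : ∀ s : Finset Γ, ∑ μ ∈ s, ‖a μ‖ ^ 2 ≤ A ^ 2) :
    ∃ v : LG K, (∀ μ, v μ = a μ) ∧ ‖v‖ ≤ A :=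
  ⟨⟨a, memℓp_gen' (C := A ^ 2) (by simpa using h)⟩, fun _ => rfl,
    lp.norm_le_of_forall_sum_le (by norm_num) hA (by simpa using h)⟩

/-- Cauchy-Schwarz for series -/
theorem cs {a b : Γ → K} {A B : ℝ} (hA : 0 ≤ A) (hB : 0 ≤ B)
    (ha : ∀ s : Finset Γ, ∑ μ ∈ s, ‖a μ‖ ^ 2 ≤ A ^ 2)
    (hb : ∀ s : Finset Γ, ∑ μ ∈ s, ‖b μ‖ ^ 2 ≤ B ^ 2) :
    ∃ z, HasSum (fun μ => ⟪a μ, b μ⟫_ℂ) z ∧ ‖z‖ ≤ A * B := by
  obtain ⟨v, h1, h2⟩ := exists_lp hA ha
  obtain ⟨w, h3, h4⟩ := exists_lp hB hb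
  exact ⟨_, by simpa only [h1, h3] using lp.hasSum_inner (𝕜 := ℂ) v w,
    (norm_inner_le_norm _ _).trans (by gcongr)⟩

theorem hs_congr {f g : Γ → ℂ} {z : ℂ} (h : HasSum f z) (e : ∀ μ, g μ = f μ) : HasSum g z :=
  funext e ▸ h

variable {I : Ind K} {F F' : Γ → ℂ} {C B : ℝ} {η η₁ η₂ : K} {Y y a : K →L[ℂ] K}

theorem sum_le (I : Ind K) (η : K) (s : Finset Γ) :
    ∑ μ ∈ s, ‖I.j (I.ρ μ⁻¹ η)‖ ^ 2 ≤ ‖η‖ ^ 2 :=
  sum_le_hasSum s (fun _ _ => sq_nonneg _) (I.pars η)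

theorem Bd.nsq (hF : ∀ μ, ‖F μ‖ ≤ C) : Bd fun μ => ‖F μ‖ ^ 2 :=
  ⟨C ^ 2, fun μ => by rw [abs_sq]; gcongr; exact hF μ⟩

theorem sum_le_av (hF : ∀ μ, ‖F μ‖ ≤ C) (η : K) (s : Finset Γ) :
    ∑ μ ∈ s, ‖F μ • I.j (I.ρ μ⁻¹ η)‖ ^ 2 ≤ √(av I η fun μ => ‖F μ‖ ^ 2) ^ 2 := by
  rw [Real.sq_sqrt (av_nonneg fun _ => sq_nonneg _)]
  simp only [norm_smul, mul_pow]
  exact (Bd.nsq hF).sm.sum_le_tsum s fun _ _ => by positivity

theorem sqrt_av_le (hF : ∀ μ, ‖F μ‖ ≤ C) (η : K) : √(av I η fun μ => ‖F μ‖ ^ 2) ≤ C * ‖η‖ := by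
  have := (norm_nonneg _).trans (hF 1)
  rw [Real.sqrt_le_left (by positivity), mul_pow, ← av_const (I := I)]
  exact av_mono (.nsq hF) (.const _) fun μ => by gcongr; exact hF μ

theorem mJ_apply (hF : ∀ μ, ‖F μ‖ ≤ C) (η : K) (μ : Γ) :
    I.mJ F η μ = F μ • I.j (I.ρ μ⁻¹ η) := by
  choose v h1 h2 using fun η => exists_lp (Real.sqrt_nonneg _) (sum_le_av (I := I) hF η)
  have h : ∃ S : K →L[ℂ] LG K, ∀ η μ, S η μ = (F μ • (I.j * I.ρ μ⁻¹)) η :=
    ⟨LinearMap.mkContinuous ⟨⟨v, fun x y => lp.ext (funext fun μ => by simp [h1])⟩, fun c x =>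
      lp.ext (funext fun μ => by simp [h1, smul_comm c])⟩ C
      fun η => (h2 η).trans (sqrt_av_le hF η), h1⟩
  rw [Ind.mJ, rows, dif_pos h]
  exact h.choose_spec η μ

theorem hasSum_m (hF : ∀ μ, ‖F μ‖ ≤ C) (η₁ η₂ : K) :
    HasSum (fun μ => F μ * ⟪I.j (I.ρ μ⁻¹ η₁), I.j (I.ρ μ⁻¹ η₂)⟫_ℂ) ⟪η₁, I.m F η₂⟫_ℂ := by
  have e : I.J = I.mJ fun _ => 1 := by simp [Ind.J, Ind.mJ]
  have := lp.hasSum_inner (𝕜 := ℂ) (I.J η₁) (I.mJ F η₂)
  rw [← ContinuousLinearMap.adjoint_inner_right] at this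
  refine hs_congr this fun μ => ?_
  rw [e, mJ_apply hF, mJ_apply (F := fun _ => 1) (C := 1) (by simp), one_smul, inner_smul_right]

theorem norm_m_apply (hF : ∀ μ, ‖F μ‖ ≤ C) (η : K) :
    ‖I.m F η‖ ≤ √(av I η fun μ => ‖F μ‖ ^ 2) := by
  obtain ⟨z, h1, h2⟩ := cs (norm_nonneg _) (Real.sqrt_nonneg _) (sum_le I (I.m F η))
    (sum_le_av hF η)
  simp only [inner_smul_right] at h1
  rw [h1.unique (hasSum_m hF _ _), inner_self_eq_norm_sq_to_K] at h2
  rcases (norm_nonneg (I.m F η)).eq_or_lt with h | h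
  · rw [← h]; positivity
  · exact le_of_mul_le_mul_left (by simpa [sq] using h2) h

theorem norm_m_le (hF : ∀ μ, ‖F μ‖ ≤ C) : ‖I.m F‖ ≤ C :=
  ContinuousLinearMap.opNorm_le_bound _ ((norm_nonneg _).trans (hF 1)) fun η =>
    (norm_m_apply hF η).trans (sqrt_av_le hF η)

theorem inner_m_real {G : Γ → ℝ} (hG : Bd G) (η : K) :
    ⟪η, I.m (fun μ => G μ) η⟫_ℂ = av I η G := by
  obtain ⟨C, h⟩ := id hG
  refine (hasSum_m (C := C) (by simpa using h) η η).unique ?_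
  simpa [inner_self_eq_norm_sq_to_K, av] using
    Complex.hasSum_ofReal.2 (hG.sm (I := I) (η := η)).hasSum

theorem m_one : I.m (fun _ => 1) = 1 := op_ext fun η => by
  simpa [av_const, inner_self_eq_norm_sq_to_K] using inner_m_real (I := I) (.const 1) η

theorem m_ext {S T : K →L[ℂ] K} (h : ∀ η₁ η₂, ⟪η₁, S η₂⟫_ℂ = ⟪η₁, T η₂⟫_ℂ) : S = T :=
  op_ext fun _ => h _ _

theorem m_lin {D : ℝ} (hF : ∀ μ, ‖F μ‖ ≤ C) (hF' : ∀ μ, ‖F' μ‖ ≤ D) (c : ℂ) :
    I.m (fun μ => c * F μ + F' μ) = c • I.m F + I.m F' := m_ext fun η₁ η₂ => by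
  refine (hasSum_m (C := ‖c‖ * C + D) (fun μ => norm_add_le_of_le (by
    rw [norm_mul]; gcongr; exact hF μ) (hF' μ)) η₁ η₂).unique ?_
  simpa [inner_add_right, inner_smul_right, add_mul, mul_assoc] using
    ((hasSum_m hF η₁ η₂).mul_left c).add (hasSum_m hF' η₁ η₂)

theorem star_comm_ρ {S : K →L[ℂ] K} (h : ∀ μ, Commute S (I.ρ μ)) (μ : Γ) :
    Commute (star S) (I.ρ μ) := by
  simpa only [URep.star_apply, inv_inv] using (h μ⁻¹).star_star

theorem comm_app {S T : K →L[ℂ] K} (h : Commute S T) (η : K) : S (T η) = T (S η) :=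
  congrArg (fun A : K →L[ℂ] K => A η) h.eq

theorem inner_star (S : K →L[ℂ] K) (v w : K) : ⟪star S v, w⟫_ℂ = ⟪v, S w⟫_ℂ :=
  ContinuousLinearMap.adjoint_inner_left S w v

theorem inner_j (v w : K) : ⟪I.j v, w⟫_ℂ = ⟪v, I.j w⟫_ℂ := by rw [← inner_star I.j, I.j_sa]

theorem commute_m {S : K →L[ℂ] K} (hj : Commute S I.j) (hρ : ∀ μ, Commute S (I.ρ μ))
    (hF : ∀ μ, ‖F μ‖ ≤ C) : Commute S (I.m F) := m_ext fun η₁ η₂ => by
  have h1 : Commute (star S) I.j := by simpa only [I.j_sa] using hj.star_star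
  refine ((inner_star S _ _).symm.trans ((hasSum_m hF _ η₂).unique ?_))
  refine hs_congr (hasSum_m (I := I) hF η₁ (S η₂)) fun μ => ?_
  rw [← comm_app (hρ _), ← comm_app hj, ← comm_app (star_comm_ρ hρ _), ← comm_app h1, inner_star]

theorem m_mem (hF : ∀ μ, ‖F μ‖ ≤ C) : I.m F ∈ I.N := fun a ha =>
  commute_m (I.Cj a ha) (I.Cρ a ha) hF

theorem ρ_m (hF : ∀ μ, ‖F μ‖ ≤ C) (ν : Γ) :
    I.ρ ν * I.m F * I.ρ ν⁻¹ = I.m fun μ => F (ν⁻¹ * μ) := m_ext fun η₁ η₂ => by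
  refine ((I.ρ.inner_right ν _ _).trans ((hasSum_m hF _ (I.ρ ν⁻¹ η₂)).unique ?_))
  simpa only [Function.comp_def, Equiv.coe_mulLeft, inv_mul_cancel_left, mul_inv_rev,
    URep.mul_apply] using (Equiv.mulLeft ν).hasSum_iff.2 (hasSum_m (fun μ => hF (ν⁻¹ * μ)) η₁ η₂)

theorem star_m (hF : ∀ μ, ‖F μ‖ ≤ C) : star (I.m F) = I.m fun μ => (starRingEnd ℂ) (F μ) :=
  m_ext fun η₁ η₂ => by
    rw [← inner_conj_symm, inner_star]
    refine HasSum.unique ?_ (hasSum_m (C := C) (by simpa using hF) η₁ η₂)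
    simpa using (hasSum_m hF η₂ η₁).mapL (Complex.conjCLE : ℂ →L[ℝ] ℂ)

theorem m_split (s : Finset Γ) (η : K) :
    η = I.m (ic (s : Set Γ)ᶜ) η + ∑ ν ∈ s, I.ρ ν (I.j (I.j (I.ρ ν⁻¹ η))) := by
  refine ext_inner_left ℂ fun w => ?_
  have h1 := hasSum_m (I := I) (F := fun _ => 1) (C := 1) (by simp) w η
  have h2 := (hasSum_m (I := I) (norm_ic_le (s : Set Γ)ᶜ) w η).add (hasSum_sum_of_ne_finset_zero (s := s)
    (f := fun μ => ic (s : Set Γ) μ * ⟪I.j (I.ρ μ⁻¹ w), I.j (I.ρ μ⁻¹ η)⟫_ℂ) (L := .unconditional _)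
      fun μ h => by simp [h])
  simp only [ic_compl, ← add_mul, sub_add_cancel] at h2
  rw [m_one] at h1
  rw [ic_compl, inner_add_right, inner_sum]
  refine (h1.unique h2).trans (congrArg _ (Finset.sum_congr rfl fun μ h => ?_))
  rw [I.ρ.inner_right, inner_j, ic_of_mem h, one_mul]

theorem norm_j_le (I : Ind K) (η : K) : ‖I.j η‖ ≤ ‖η‖ := by
  have := sum_le I η {1}
  rw [Finset.sum_singleton, inv_one, map_one] at this
  exact (pow_le_pow_iff_left₀ (norm_nonneg _) (norm_nonneg _) two_ne_zero).1 this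

theorem N_mul {S T : K →L[ℂ] K} (h : S ∈ I.N) (h' : T ∈ I.N) : S * T ∈ I.N :=
  Set.mul_mem_centralizer h h'

theorem N_star (h : Y ∈ I.N) : star Y ∈ I.N := fun a ha => by
  simpa only [star_mul, star_star] using congrArg star (h _ (I.star_C a ha)).symm

theorem N_conj (h : Y ∈ I.N) (g : G) : I.U g⁻¹ * Y * I.U g ∈ I.N := fun a ha => by
  have := congrArg (fun T => I.U g⁻¹ * T * I.U g) (h _ (I.conj_C a ha g))
  simp only [mul_assoc, URep.inv_mul_self, mul_one] at this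
  simp only [← mul_assoc, URep.inv_mul_self, one_mul] at this ⊢
  exact this

theorem band (y : K →L[ℂ] K) (ν : Γ) (η : K) (t : Finset Γ) :
    ∑ μ ∈ t, ‖I.j (y (I.ρ ν (I.j (I.j (I.ρ (μ * ν)⁻¹ η)))))‖ ^ 2 ≤ (‖y‖ * ‖η‖) ^ 2 := by
  have := sum_le I η (t.map (Equiv.mulRight ν).toEmbedding)
  rw [Finset.sum_map] at this
  rw [mul_pow]
  refine le_trans ?_ (mul_le_mul_of_nonneg_left this (sq_nonneg _))
  rw [Finset.mul_sum]
  refine Finset.sum_le_sum fun μ _ => ?_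
  rw [← mul_pow]
  gcongr
  refine (norm_j_le I _).trans ((y.le_opNorm _).trans ?_)
  rw [URep.norm_map]
  gcongr
  exact norm_j_le I _

theorem far (hy : y ∈ I.Q) (hB : 0 ≤ B) (h : I.Bes B η₂) (hF : ∀ μ, ‖F μ‖ ≤ 1) (s : Finset Γ)
    (η₁ : K) : ∃ z : ℂ, ‖z‖ ≤ ‖η₁‖ * (B * ‖I.m (ic (s : Set Γ)ᶜ) (star y I.ξ)‖) ∧
      ∃ w : Γ → ℂ, (∀ ν, HasSum (fun μ => F μ * ⟪I.j (I.ρ μ⁻¹ η₁),
        I.j (y (I.ρ ν (I.j (I.j (I.ρ (μ * ν)⁻¹ η₂)))))⟫_ℂ) (w ν)) ∧
      ⟪η₁, I.m F (y η₂)⟫_ℂ = z + ∑ ν ∈ s, w ν := by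
  have hF' : ∀ μ, ‖(starRingEnd ℂ) (F μ)‖ ≤ 1 := by simpa using hF
  have h1 := fun s => (sum_le_av (I := I) hF' η₁ s).trans
    (pow_le_pow_left₀ (Real.sqrt_nonneg _) (sqrt_av_le hF' η₁) 2)
  rw [one_mul] at h1
  obtain ⟨z, z1, z2⟩ := cs (norm_nonneg _)
    (b := fun μ => I.j ((y * I.m (ic (s : Set Γ)ᶜ)) (I.ρ μ⁻¹ η₂)))
    (B := B * ‖I.m (ic (s : Set Γ)ᶜ) (star y I.ξ)‖) (by positivity) h1 fun t => by
      simpa [star_m (norm_ic_le _), mul_pow] using h _ (N_mul hy.1 (m_mem (norm_ic_le _))) t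
  choose w w1 w2 using fun ν => cs (norm_nonneg _)
    (b := fun μ => I.j (y (I.ρ ν (I.j (I.j (I.ρ (μ * ν)⁻¹ η₂))))))
    (by positivity) h1 (band y ν η₂)
  simp only [inner_smul_left, Complex.conj_conj] at z1 w1
  refine ⟨z, z2, w, w1, (hasSum_m hF _ _).unique ?_⟩
  refine hs_congr (z1.add (hasSum_sum fun ν (_ : ν ∈ s) => w1 ν)) fun μ => ?_
  conv_lhs => rw [← comm_app (hy.2 _), m_split (I := I) s (I.ρ μ⁻¹ η₂)]
  simp only [map_add, map_sum, inner_add_right, inner_sum, mul_add, Finset.mul_sum, mul_inv_rev,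
    URep.mul_apply, mul_apply_eq_comp]

theorem Q_star (hy : y ∈ I.Q) : star y ∈ I.Q := ⟨N_star hy.1, star_comm_ρ hy.2⟩

theorem tendsto_m_compl (η : K) :
    Tendsto (fun s : Finset Γ => ‖I.m (ic (s : Set Γ)ᶜ) η‖) atTop (𝓝 0) := by
  refine squeeze_zero (fun _ => norm_nonneg _) (fun s => (norm_m_apply (norm_ic_le _) η).trans_eq ?_)
    (by simpa using (tendsto_pm_compl (I := I) η).sqrt)
  congr 2
  funext μ
  by_cases h : μ ∈ (s : Set Γ)ᶜ <;> simp [h]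

/-- finite propagation -/
theorem comm_lim {α : Type*} {l : Filter α} (hy : y ∈ I.Q) {η₁ η₂ : α → K} {F : α → Γ → ℂ}
    (h₁ : ∀ t, I.Bes B (η₁ t)) (h₂ : ∀ t, I.Bes B (η₂ t)) (n₁ : ∀ t, ‖η₁ t‖ ≤ B)
    (n₂ : ∀ t, ‖η₂ t‖ ≤ B) (hB : 0 < B) (hF : ∀ t μ, ‖F t μ‖ ≤ 1)
    (h : ∀ ν, Tendsto (fun t => av I (η₂ t) fun μ => ‖F t (μ * ν) - F t μ‖ ^ 2) l (𝓝 0)) :
    Tendsto (fun t => ⟪η₁ t, I.m (F t) (y (η₂ t))⟫_ℂ - ⟪η₁ t, y (I.m (F t) (η₂ t))⟫_ℂ) l (𝓝 0) := by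
  classical
  rw [NormedAddGroup.tendsto_nhds_zero]
  intro ε hε
  have hδ : 0 < ε / (4 * B ^ 2) := by positivity
  have hi : Tendsto (fun s : Finset Γ => s.map (Equiv.inv Γ).toEmbedding) atTop atTop :=
    (Equiv.inv Γ).finsetCongr.toOrderIso (fun _ _ h => Finset.map_subset_map.2 h)
      (fun _ _ h => Finset.map_subset_map.2 h) |>.tendsto_atTop
  obtain ⟨s, s1, s2⟩ := (((tendsto_m_compl (I := I) (star y I.ξ)).eventually
    (gt_mem_nhds hδ)).and (((tendsto_m_compl (I := I) (y I.ξ)).comp hi).eventually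
      (gt_mem_nhds hδ))).exists
  have h3 := tendsto_finsetSum s fun ν _ => (h ν⁻¹).sqrt.const_mul (‖y‖ * B)
  simp only [Real.sqrt_zero, mul_zero, Finset.sum_const_zero] at h3
  filter_upwards [h3.eventually (gt_mem_nhds (half_pos hε))] with t ht
  obtain ⟨z, z1, w, w1, e⟩ := far hy hB.le (h₂ t) (hF t) s (η₁ t)
  obtain ⟨z', z2, w', w2, e'⟩ := far (Q_star hy) hB.le (h₁ t)
    (F := fun μ => (starRingEnd ℂ) (F t μ)) (by simpa using hF t)
      (s.map (Equiv.inv Γ).toEmbedding) (η₂ t)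
  rw [← star_m (hF t), ← inner_conj_symm, inner_star, inner_star, Finset.sum_map] at e'
  rw [star_star] at z2
  have key : ∀ ν, ‖w ν - (starRingEnd ℂ) (w' ν⁻¹)‖ ≤
      ‖y‖ * B * √(av I (η₂ t) fun μ => ‖F t (μ * ν⁻¹) - F t μ‖ ^ 2) := fun ν => by
    obtain ⟨u, u1, u2⟩ := cs (by positivity) (Real.sqrt_nonneg _) (band (star y) ν⁻¹ (η₁ t))
      (sum_le_av (I := I) (F := fun μ => F t (μ * ν⁻¹) - F t μ) (C := 1 + 1)
        (fun μ => norm_sub_le_of_le (hF t _) (hF t _)) (η₂ t))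
    rw [norm_star] at u2
    refine le_trans (le_of_eq (congrArg _ (HasSum.unique ?_ u1))) (u2.trans (by gcongr; exact n₁ t))
    refine hs_congr (((Equiv.mulRight ν⁻¹).hasSum_iff.2 (w1 ν)).sub
      ((w2 ν⁻¹).mapL (Complex.conjCLE : ℂ →L[ℝ] ℂ))) fun μ => ?_
    simp only [Function.comp_def, Equiv.coe_mulRight, inv_mul_cancel_right, inner_smul_right,
      sub_mul, ContinuousLinearEquiv.coe_coe, Complex.conjCLE_apply, map_mul, Complex.conj_conj,
      inner_conj_symm]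
    congr 2
    generalize I.j (I.ρ (μ * ν⁻¹)⁻¹ (η₁ t)) = v
    rw [inner_j, inner_star, comm_app (hy.2 ν), I.ρ.inner_left, inv_inv, inner_j,
      ← comm_app (hy.2 ν)]
  have e2 := congrArg (starRingEnd ℂ) e'
  rw [Complex.conj_conj, map_add, map_sum] at e2
  rw [e, e2, add_sub_add_comm, ← Finset.sum_sub_distrib]
  have h4 := (norm_sum_le _ _).trans (Finset.sum_le_sum fun ν (_ : ν ∈ s) => key ν)
  have h5 : ∀ a b : ℝ, a ≤ B → 0 ≤ b → b < ε / (4 * B ^ 2) → a * (B * b) ≤ ε / 4 :=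
    fun a b h1 h2 h3 => by
      rw [lt_div_iff₀ (by positivity)] at h3
      nlinarith [mul_le_mul_of_nonneg_right h1 (mul_nonneg hB.le h2)]
  have h6 := norm_sub_le_of_le (z1.trans (h5 _ _ (n₁ t) (norm_nonneg _) s1))
    ((Complex.norm_conj z').trans_le (z2.trans (h5 _ _ (n₂ t) (norm_nonneg _) s2)))
  exact (norm_add_le_of_le h6 h4).trans_lt (by linarith)

end Crest.Agent.N111.T
end

-- ▼ part N111/T/Lim
section

/-! # Row 111, `TightStmt` (helper6), part 3: Bessel vectors, limits along the flow -/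

set_option autoImplicit false
set_option linter.unusedSectionVars false

namespace Crest.Agent.N111.T

open Topology Filter Set
open scoped InnerProductSpace

variable {K : Type} [NormedAddCommGroup K] [InnerProductSpace ℂ K] [CompleteSpace K]
  {I : Ind K} {C B : ℝ} {η : K} {a : K →L[ℂ] K} {α : Type*} {l : Filter α}

theorem bes_ξ : I.Bes 1 I.ξ := fun Y hY s => by simpa using I.bes Y hY s

theorem bes_ρ (h : I.Bes B η) (ν : Γ) : I.Bes B (I.ρ ν η) := fun Y hY s => by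
  simpa [URep.mul_apply] using h Y hY (s.map (Equiv.mulLeft ν⁻¹).toEmbedding)

theorem bes_C (h : I.Bes B η) (ha : a ∈ I.C) : I.Bes (‖a‖ * B) (a η) := fun Y hY s => by
  rw [mul_pow, mul_assoc]
  refine le_trans ?_ (mul_le_mul_of_nonneg_left (h Y hY s) (sq_nonneg _))
  rw [Finset.mul_sum]
  refine Finset.sum_le_sum fun μ _ => ?_
  rw [← comm_app (I.Cρ a ha _), ← comm_app (hY a ha), ← comm_app (I.Cj a ha), ← mul_pow]
  gcongr
  exact a.le_opNorm _

theorem norm_y (g : G) (v : K) : ‖I.y g v‖ = ‖v‖ :=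
  ContinuousLinearMap.norm_map_of_mem_unitary (I.y_un g) v

theorem bes_y (h : I.Bes B η) (g : G) : I.Bes B (I.y g η) := fun Y hY s => by
  simpa [comm_app (I.y_ρ g _),
    ContinuousLinearMap.norm_map_of_mem_unitary (Unitary.star_mem (I.y_un g))] using
    h _ (N_mul hY (I.y_N g)) s

theorem U_eq (g : G) (v : K) : I.U g v = (I.U g * star (I.y g)) (I.y g v) := by
  rw [← mul_apply_eq_comp, mul_assoc, Unitary.star_mul_self_of_mem (I.y_un g), mul_one]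

theorem bes_U (h : I.Bes B η) (g : G) : I.Bes B (I.U g η) := fun Y hY s => by
  have e : ∀ v, ‖I.j (I.U g v)‖ = ‖I.j (I.y g v)‖ := fun v => by
    rw [U_eq, ← comm_app (I.V_j g), ContinuousLinearMap.norm_map_of_mem_unitary
      (mul_mem (I.U.mem_unitary g) (Unitary.star_mem (I.y_un g)))]
  simpa [← e, URep.star_apply, I.V_ξ, comm_app (I.Uρ g _)] using
    h _ (N_mul (I.y_N g) (N_conj hY g)) s

theorem bes_D (ha : a ∈ I.C) (μ : Γ) :
    ∀ B, ‖a‖ * (1 + ‖I.ξ‖) ≤ B → I.Bes B (a (I.ρ μ I.ξ)) ∧ ‖a (I.ρ μ I.ξ)‖ ≤ B := fun B hB =>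
  ⟨fun Y hY s => (bes_C (bes_ρ bes_ξ μ) ha Y hY s).trans (by
    gcongr; nlinarith [norm_nonneg a, norm_nonneg I.ξ]), (a.le_opNorm _).trans (by
      rw [URep.norm_map]; nlinarith [norm_nonneg a])⟩

theorem comm_U (g : G) {η₁ η₂ : α → K} {F : α → Γ → ℂ}
    (h₁ : ∀ t, I.Bes B (η₁ t)) (h₂ : ∀ t, I.Bes B (η₂ t)) (n₁ : ∀ t, ‖η₁ t‖ ≤ B)
    (n₂ : ∀ t, ‖η₂ t‖ ≤ B) (hB : 0 < B) (hF : ∀ t μ, ‖F t μ‖ ≤ 1)
    (h : ∀ ν, Tendsto (fun t => av I (η₂ t) fun μ => ‖F t (μ * ν) - F t μ‖ ^ 2) l (𝓝 0)) :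
    Tendsto (fun t => ⟪η₁ t, I.m (F t) (I.U g (η₂ t))⟫_ℂ - ⟪η₁ t, I.U g (I.m (F t) (η₂ t))⟫_ℂ) l
      (𝓝 0) := by
  refine (comm_lim ⟨I.y_N g, I.y_ρ g⟩ (fun t => bes_y (bes_U (h₁ t) g⁻¹) g) h₂
    (fun t => by rw [norm_y, URep.norm_map]; exact n₁ t) n₂ hB hF h).congr fun t => ?_
  rw [U_eq g (η₂ t), U_eq g (I.m _ _), ← comm_app (commute_m (I.V_j g)
    (fun μ => (I.Uρ g μ).mul_left (star_comm_ρ (I.y_ρ g) μ)) (hF t)), ← inner_star (_ * _),
    ← inner_star (_ * _), star_mul, star_star, URep.star_apply, mul_apply_eq_comp]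

theorem tendsto_of_dense {T : α → K →L[ℂ] K} (hT : ∀ t, ‖T t‖ ≤ C) {D : Set K}
    (hD : Dense (Submodule.span ℂ D : Set K)) (h : ∀ η ∈ D, Tendsto (fun t => T t η) l (𝓝 0))
    (η : K) : Tendsto (fun t => T t η) l (𝓝 0) := by
  have h1 : ∀ η ∈ Submodule.span ℂ D, Tendsto (fun t => T t η) l (𝓝 0) := fun η hη => by
    induction hη using Submodule.span_induction with
    | mem x hx => exact h x hx
    | zero => simpa using tendsto_const_nhds
    | add x y _ _ hx hy => simpa using hx.add hy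
    | smul c x _ hx => simpa using hx.const_smul c
  rw [NormedAddGroup.tendsto_nhds_zero]
  intro ε hε
  obtain ⟨w, hw, e⟩ := hD.exists_dist_lt η (show 0 < ε / 2 / (|C| + 1) by positivity)
  filter_upwards [NormedAddGroup.tendsto_nhds_zero.1 (h1 w hw) _ (half_pos hε)] with t ht
  rw [dist_eq_norm, lt_div_iff₀ (by positivity)] at e
  have h2 := (T t).le_of_opNorm_le ((hT t).trans (le_abs_self C)) (η - w)
  rw [← sub_add_cancel η w, map_add]
  nlinarith [norm_add_le (T t (η - w)) (T t w), norm_nonneg (η - w)]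

theorem norm_mul_U (T : K →L[ℂ] K) (g : G) : ‖T * I.U g‖ ≤ ‖T‖ :=
  (norm_mul_le _ _).trans (mul_le_of_le_one_right (norm_nonneg _) (I.U.norm_le g))

/-- escape of mass -/
theorem escape (s : Finset Γ) : Tendsto (fun k => pm I (xi I k) s) atTop (𝓝 0) := by
  have key : ∀ μ η, Tendsto (fun k : ℕ => (I.j * I.ρ μ * I.U (al k)) η) atTop (𝓝 0) := fun μ => by
    refine tendsto_of_dense (fun k => norm_mul_U _ _) I.sep ?_
    rintro η ⟨-, B, R, h⟩
    rw [NormedAddGroup.tendsto_nhds_zero]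
    by_contra hc
    push Not at hc
    obtain ⟨δ, hδ, hc⟩ := hc
    obtain ⟨φ, h1, h2⟩ := extraction_of_frequently_atTop hc
    obtain ⟨n, hn⟩ := exists_nat_gt (B * ‖star (I.ρ μ) I.ξ‖ ^ 2 / δ ^ 2)
    have h3 := h (I.ρ μ) (fun a ha => I.Cρ a ha μ) n (fun i => al (φ ((⌈R⌉₊ + 1) * i)))
      fun i k hik => by
        have e : ∀ i k : Fin n, i < k → R + φ ((⌈R⌉₊ + 1) * i) < φ ((⌈R⌉₊ + 1) * k) :=
          fun i k h => by
            have := (h1.add_le_nat (⌈R⌉₊ + 1) ((⌈R⌉₊ + 1) * i)).trans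
              (h1.monotone (show _ ≤ (⌈R⌉₊ + 1) * k by nlinarith [show (i : ℕ) < k from h]))
            have h4 : ((⌈R⌉₊ + 1 + φ ((⌈R⌉₊ + 1) * i) : ℕ) : ℝ) ≤ _ := Nat.cast_le.2 this
            push_cast at h4
            linarith [Nat.le_ceil R]
        rw [← al_neg, ← al_add]
        rcases lt_or_gt_of_ne hik with h | h
        · refine lt_of_lt_of_le ?_ ((le_abs_self _).trans (abs_le_nm _ 1 1))
          rw [al, dg_apply, if_pos rfl]
          exact lt_of_lt_of_le (by have := e i k h; simp only [dgl, Matrix.cons_val]; linarith)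
            (Real.add_one_le_exp _)
        · refine lt_of_lt_of_le ?_ ((le_abs_self _).trans (abs_le_nm _ 0 0))
          rw [al, dg_apply, if_pos rfl]
          have h5 : (φ ((⌈R⌉₊ + 1) * k) : ℝ) ≤ φ ((⌈R⌉₊ + 1) * i) :=
            Nat.cast_le.2 (h1.monotone (Nat.mul_le_mul_left _ (le_of_lt h)))
          exact lt_of_lt_of_le (by have := e k i h; simp only [dgl, Matrix.cons_val]; linarith)
            (Real.add_one_le_exp _)
    have h4 := Finset.card_nsmul_le_sum Finset.univ _ _ fun (i : Fin n) _ =>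
      pow_le_pow_left₀ hδ.le (h2 ((⌈R⌉₊ + 1) * i)) 2
    rw [div_lt_iff₀ (by positivity)] at hn
    simp only [Finset.card_univ, Fintype.card_fin, nsmul_eq_mul, mul_apply_eq_comp] at h4
    linarith
  simpa [pm_finset, xi] using tendsto_finsetSum s fun μ _ => (key μ⁻¹ I.ξ).norm.pow 2

/-- slow drift -/
theorem drift (k : ℕ → ℕ) {F : ℕ → Γ → ℝ} (hF : ∀ n μ, F n μ ∈ Icc (0 : ℝ) 1)
    (h : ∀ ν, ∀ ε > 0, ∀ᶠ n in atTop, ∀ μ, |F n (μ * ν) - F n μ| ≤ ε) :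
    Tendsto (fun n => av I (xi I (k n + 1)) (F n) - av I (xi I (k n)) (F n)) atTop (𝓝 0) := by
  have hF' : ∀ n μ, ‖(F n μ : ℂ)‖ ≤ 1 := fun n μ => by
    simpa using abs_le.2 ⟨by linarith [(hF n μ).1], (hF n μ).2⟩
  obtain ⟨b1, b2⟩ := bes_D I.one_C 1 _ le_rfl
  rw [map_one, one_apply_eq_self, one_apply_eq_self] at b1 b2
  have := comm_U (l := atTop) (al 1) (η₁ := fun n => xi I (k n + 1)) (η₂ := fun n => xi I (k n))
    (fun _ => bes_U b1 _) (fun _ => bes_U b1 _) (fun _ => (norm_xi _).trans_le b2)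
    (fun _ => (norm_xi _).trans_le b2) ((norm_pos_iff.2 I.ξ_ne).trans_le b2) hF' fun ν => by
      refine NormedAddGroup.tendsto_nhds_zero.2 fun ε hε => ?_
      have hM := M_pos I
      filter_upwards [h ν √(ε / 2 / ‖I.ξ‖ ^ 2) (by positivity)] with n hn
      rw [Real.norm_of_nonneg (av_nonneg fun _ => sq_nonneg _)]
      refine (av_mono (.nsq fun μ => norm_sub_le_of_le (hF' n _) (hF' n _))
        (.const (ε / 2 / ‖I.ξ‖ ^ 2)) fun μ => ?_).trans_lt ?_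
      · rw [← Complex.ofReal_sub, Complex.norm_real, ← Real.le_sqrt (norm_nonneg _) (by positivity)]
        exact hn μ
      · rw [av_const, norm_xi, div_mul_cancel₀ _ hM.ne']
        linarith
  have e : ∀ k, xi I (k + 1) = I.U (al 1) (xi I k) := fun k => by
    rw [xi, xi, ← URep.mul_apply, ← al_add, Nat.cast_succ, add_comm]
  simp only [e, URep.inner_map_map, inner_m_real (.icc (hF _))] at this ⊢
  simpa [Function.comp_def] using (Complex.continuous_re.tendsto _).comp this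

section
variable {𝓡 : Filter Γ} {k : α → ℕ}
  (hR : ∀ A ∈ 𝓡, Tendsto (fun t => pm I (xi I (k t)) Aᶜ) l (𝓝 0))
  (hl : ∀ ν, Tendsto (ν * ·) 𝓡 𝓡) {F : Γ → ℂ} (hF : ∀ μ, ‖F μ‖ ≤ C) (h : Tendsto F 𝓡 (𝓝 0))
include hR hF h

theorem av_lim : Tendsto (fun t => av I (xi I (k t)) fun μ => ‖F μ‖ ^ 2) l (𝓝 0) := by
  refine NormedAddGroup.tendsto_nhds_zero.2 fun ε hε => ?_
  have hM := M_pos I
  have h1 := (hR _ ((show Tendsto (fun μ => ‖F μ‖ ^ 2) 𝓡 (𝓝 0) by simpa using h.norm.pow 2).eventually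
    (ge_mem_nhds (show 0 < ε / 2 / ‖I.ξ‖ ^ 2 by positivity)))).const_mul (C ^ 2)
  rw [mul_zero] at h1
  filter_upwards [h1.eventually (gt_mem_nhds (half_pos hε))] with t ht
  rw [Real.norm_of_nonneg (av_nonneg fun _ => sq_nonneg _)]
  refine (av_le (A := {μ | ‖F μ‖ ^ 2 ≤ ε / 2 / ‖I.ξ‖ ^ 2}ᶜ) (C := C ^ 2) (.nsq hF)
    (show 0 ≤ ε / 2 / ‖I.ξ‖ ^ 2 by positivity) (fun μ => by gcongr; exact hF μ)
    fun μ hμ => by simpa using hμ).trans_lt ?_
  rw [norm_xi, div_mul_cancel₀ _ hM.ne']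
  linarith

include hl

theorem m_lim (η : K) : Tendsto (fun t => I.m F (I.U (al (k t)) η)) l (𝓝 0) := by
  refine tendsto_of_dense (T := fun t => I.m F * I.U (al (k t))) (fun t => norm_mul_U _ _)
    I.dense ?_ η
  rintro _ ⟨a, ha, μ, rfl⟩
  refine squeeze_zero_norm (fun t => ?_) (by
    simpa using (av_lim hR (fun ν => hF (μ * ν)) (h.comp (hl μ))).sqrt.const_mul ‖a‖)
  have e := congrArg (fun T => T (xi I (k t))) (ρ_m (I := I) hF μ⁻¹)
  have e2 := comm_app (m_mem (I := I) hF _ (I.conj_C a ha (al (k t)))) (I.ρ μ (xi I (k t)))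
  simp only [mul_apply_eq_comp, inv_inv, xi, ← comm_app (I.Uρ _ μ), URep.inv_apply_apply] at e e2 ⊢
  rw [← e2, URep.norm_map]
  refine (a.le_opNorm _).trans (mul_le_mul_of_nonneg_left ?_ (norm_nonneg _))
  rw [URep.norm_map, ← I.ρ.norm_map μ⁻¹, e]
  exact norm_m_apply (fun ν => hF (μ * ν)) _

theorem av_lim' (η : K) :
    Tendsto (fun t => av I (I.U (al (k t)) η) fun μ => ‖F μ‖ ^ 2) l (𝓝 0) := by
  have := m_lim hR hl (F := fun μ => ((‖F μ‖ ^ 2 : ℝ) : ℂ)) (C := C ^ 2)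
    (fun μ => by rw [Complex.norm_real, norm_pow, norm_norm]; gcongr; exact hF μ)
    (by simpa using (h.norm.pow 2).ofReal) η
  refine squeeze_zero_norm (fun t => ?_) (by simpa using this.norm.const_mul ‖η‖)
  rw [← Complex.norm_real, ← inner_m_real (.nsq hF)]
  exact (norm_inner_le_norm _ _).trans_eq (by simp)

end

end Crest.Agent.N111.T
end

-- ▼ part N111/T/Geo
section

/-! # Row 111, `TightStmt` (helper6), part 4: the flag of a regular matrix -/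

set_option autoImplicit false

namespace Crest.Agent.N111.T

open Topology Filter Set Matrix

/-- the level -/
noncomputable def u (μ : Γ) : ℝ := Real.log (nm (ι μ))

/-- the first gap -/
noncomputable def r (μ : Γ) : ℝ := 2 * u μ - u (dl μ)

theorem lip_u : Lip u := fun ν => ⟨_, fun μ => by
  simpa only [u, map_mul] using (abs_log_nm_mul_sub_le (ι μ) (ι ν)).symm⟩

theorem Lip.dl {w : Γ → ℝ} (h : Lip w) : Lip fun μ => w (dl μ) := fun ν =>
  (h (N111.dl ν)).imp fun D hD μ => by simpa only [map_mul] using hD (N111.dl μ)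

theorem lip_r : Lip r := by
  have e : r = fun μ => u μ + u μ + -u (dl μ) := funext fun μ => by rw [r]; ring
  exact e ▸ (lip_u.add lip_u).add lip_u.dl.neg

theorem Lip.tendsto {w : Γ → ℝ} (h : Lip w) (ν : Γ) :
    Tendsto (ν * ·) (comap w atTop) (comap w atTop) := by
  obtain ⟨D, h⟩ := h ν
  exact tendsto_comap_iff.2 (tendsto_atTop_mono (fun μ => by
    have := (abs_le.1 (h μ).1).1
    change w μ + -D ≤ w (ν * μ)
    linarith) (tendsto_atTop_add_const_right _ _ tendsto_comap))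

/-- the regular region -/
noncomputable def Reg : Filter Γ := comap r atTop ⊓ comap (fun μ => r (dl μ)) atTop

theorem Reg_mul (ν : Γ) : Tendsto (ν * ·) Reg Reg := (lip_r.tendsto ν).inf (lip_r.dl.tendsto ν)

theorem Reg_dl : Tendsto (dl : Γ → Γ) Reg (comap r atTop) :=
  tendsto_comap_iff.2 (tendsto_comap.mono_left inf_le_right)

/-- the unit sphere -/
abbrev Sp : Type := Metric.sphere (0 : V) 1

/-- the projective action -/
noncomputable def sp (g : G) : C(Sp, Sp) where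
  toFun a := ⟨nrm (ac g a), by simpa using norm_nrm (ac_ne_zero g (ne_zero_of_mem_unit_sphere a))⟩
  continuous_toFun := (continuousOn_nrm.comp_continuous (by fun_prop)
    fun a => ac_ne_zero g (ne_zero_of_mem_unit_sphere a)).subtype_mk _

theorem sp_neg (g : G) (a : Sp) : sp g (-a) = -sp g a :=
  Subtype.ext (by simp [sp, ac_neg, nrm_neg])

/-- the attracting point -/
noncomputable def q1 (μ : Γ) : Sp := ⟨nrm (pt μ), by simpa using norm_nrm (pt_ne_zero μ)⟩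

theorem close (ν ν' : Γ) {δ : ℝ} (hδ : 0 < δ) : ∀ᶠ μ in comap r atTop,
    dist (sp (ι ν) (q1 μ)) (q1 (ν * μ * ν')) < δ ∨
      dist (sp (ι ν) (q1 μ)) (-q1 (ν * μ * ν')) < δ := by
  have hA := nm_pos (ι ν)⁻¹
  have hB := nm_pos (ι ν')
  have hB' := nm_pos (ι ν')⁻¹
  have h0 := (Real.tendsto_exp_neg_atTop_nhds_zero.comp (tendsto_comap (f := r))).const_mul
    (8 * 18 * 27 * nm (ι ν)⁻¹ ^ 3 * nm (ι ν') * nm (ι ν')⁻¹)
  rw [mul_zero] at h0
  filter_upwards [h0.eventually (gt_mem_nhds hδ)] with μ hμ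
  have hN := nm_pos (ι μ)
  have hN' := nm_pos (ι (dl μ))
  have e : Real.exp (-r μ) = nm (ι (dl μ)) / nm (ι μ) ^ 2 := by
    rw [r, neg_sub, Real.exp_sub, two_mul, Real.exp_add, u, u, Real.exp_log hN, Real.exp_log hN',
      sq]
  have ha := ac_ne_zero (ι ν) (pt_ne_zero μ)
  have hb := pt_ne_zero (ν * μ * ν')
  have h1 : nm (ι μ) ≤ 3 * nm (ι ν)⁻¹ * ‖ac (ι ν) (pt μ)‖ := by
    simpa only [ac_inv_ac, norm_pt] using norm_ac_le (ι ν)⁻¹ (ac (ι ν) (pt μ))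
  have h2 : nm (ι μ) ≤ 3 * (3 * nm (ι ν)⁻¹ * ‖pt (ν * μ * ν')‖) * nm (ι ν')⁻¹ := by
    have := nm_mul_le ((ι ν)⁻¹ * ι (ν * μ * ν')) (ι ν')⁻¹
    rw [show (ι ν)⁻¹ * ι (ν * μ * ν') * (ι ν')⁻¹ = ι μ by simp [mul_assoc]] at this
    refine this.trans ?_
    rw [norm_pt]
    gcongr
    exact nm_mul_le _ _
  have h3 : ‖ac (ι ν) (pt μ) ⨯₃ pt (ν * μ * ν')‖ ≤
      3 * (3 * nm (ι ν)⁻¹ * nm (ι (dl μ))) * (2 * 1 * nm (ι ν')) := by
    rw [pt, pt, map_mul, map_mul, ← ac_mul, ac_mul _ (ι ν'), ac_cross]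
    refine (norm_ac_le _ _).trans ?_
    gcongr
    · rw [map_mul, ← nm_dl, ι_dl]
      exact nm_mul_le _ _
    · refine (norm_cross_le _ _).trans ?_
      rw [norm_ev]
      gcongr
      exact norm_ac_ev_le _ _
  have h4 : 8 * ‖ac (ι ν) (pt μ) ⨯₃ pt (ν * μ * ν')‖ / (‖ac (ι ν) (pt μ)‖ * ‖pt (ν * μ * ν')‖)
      < δ := by
    refine lt_of_le_of_lt ?_ hμ
    rw [Function.comp_apply, e, ← mul_div_assoc, div_le_div_iff₀ (by positivity) (by positivity), sq]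
    calc _ ≤ 8 * (3 * (3 * nm (ι ν)⁻¹ * nm (ι (dl μ))) * (2 * 1 * nm (ι ν'))) *
          ((3 * nm (ι ν)⁻¹ * ‖ac (ι ν) (pt μ)‖) *
            (3 * (3 * nm (ι ν)⁻¹ * ‖pt (ν * μ * ν')‖) * nm (ι ν')⁻¹)) := by gcongr
      _ = _ := by ring
  have e2 : (sp (ι ν) (q1 μ) : V) = nrm (ac (ι ν) (pt μ)) := by
    change nrm (ac _ (_ • _)) = _
    rw [ac_smul, nrm_smul (inv_pos.2 (norm_pos_iff.2 (pt_ne_zero μ)))]
  simp only [Subtype.dist_eq, dist_eq_norm, e2, coe_neg_sphere, sub_neg_eq_add]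
  exact (nrm_close ha hb).imp (·.trans_lt h4) (·.trans_lt h4)

/-- the flag -/
noncomputable def q (μ : Γ) : Sp × Sp := (q1 μ, q1 (dl μ))

/-- the action on flags -/
noncomputable def ψ (ν : Γ) : C(Sp × Sp, Sp × Sp) := (sp (ι ν)).prodMap (sp (ι (dl ν)))

/-- symmetrisation -/
noncomputable def sy (f : C(Sp × Sp, ℂ)) (z : Sp × Sp) : ℂ :=
  (f z + f (-z.1, z.2) + f (z.1, -z.2) + f (-z.1, -z.2)) / 4

theorem norm_sy_le (f : C(Sp × Sp, ℂ)) (z : Sp × Sp) : ‖sy f z‖ ≤ ‖f‖ := by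
  rw [sy, norm_div, div_le_iff₀ (by simp)]
  exact (norm_add_le_of_le (norm_add_le_of_le (norm_add_le_of_le (f.norm_coe_le_norm _)
    (f.norm_coe_le_norm _)) (f.norm_coe_le_norm _)) (f.norm_coe_le_norm _)).trans_eq
      (by simp; ring)

theorem sy_comp (f : C(Sp × Sp, ℂ)) (ν : Γ) (z : Sp × Sp) : sy (f.comp (ψ ν)) z = sy f (ψ ν z) := by
  simp [sy, ψ, sp_neg, Prod.map]

theorem sy_close (f : C(Sp × Sp, ℂ)) (ν ν' : Γ) :
    Tendsto (fun μ => sy f (q (ν * μ * ν')) - sy f (ψ ν (q μ))) Reg (𝓝 0) := by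
  refine NormedAddGroup.tendsto_nhds_zero.2 fun ε hε => ?_
  obtain ⟨δ, hδ, h⟩ := Metric.uniformContinuous_iff.1 (CompactSpace.uniformContinuous_of_continuous
    (show Continuous (sy f) by unfold sy; fun_prop)) ε hε
  have e1 : ∀ a b, sy f (-a, b) = sy f (a, b) := fun a b => by simp only [sy, neg_neg]; ring
  have e2 : ∀ a b, sy f (a, -b) = sy f (a, b) := fun a b => by simp only [sy, neg_neg]; ring
  filter_upwards [(close ν ν' hδ).filter_mono inf_le_left,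
    Reg_dl.eventually (close (dl ν) (dl ν') hδ)] with μ h1 h2
  rw [← map_mul, ← map_mul] at h2
  rw [← dist_eq_norm, dist_comm, q, q]
  rcases h1 with h1 | h1 <;> rcases h2 with h2 | h2
  · exact h (max_lt h1 h2)
  · rw [← e2 (q1 _)]; exact h (max_lt h1 h2)
  · rw [← e1 (q1 _)]; exact h (max_lt h1 h2)
  · rw [← e1 (q1 _), ← e2 (-q1 _)]; exact h (max_lt h1 h2)

theorem sy_right (f : C(Sp × Sp, ℂ)) (ν : Γ) :
    Tendsto (fun μ => sy f (q (μ * ν)) - sy f (q μ)) Reg (𝓝 0) := by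
  simpa using (sy_close f 1 ν).sub (sy_close f 1 1)

theorem dot_q : Tendsto (fun μ => ((q μ).1 : V) ⬝ᵥ ((q μ).2 : V)) Reg (𝓝 0) := by
  refine squeeze_zero_norm (fun μ => ?_) (Real.tendsto_exp_neg_atTop_nhds_zero.comp
    ((tendsto_comap.mono_left inf_le_left).atTop_add_atTop (tendsto_comap.mono_left inf_le_right)))
  have hN := nm_pos (ι μ)
  have hN' := nm_pos (ι (dl μ))
  have e : Real.exp (-(r μ + r (dl μ))) = (nm (ι μ))⁻¹ * (nm (ι (dl μ)))⁻¹ := by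
    rw [← Real.exp_log hN, ← Real.exp_log hN', ← Real.exp_neg, ← Real.exp_neg, ← Real.exp_add]
    simp only [r, dl_dl, u]
    ring_nf
  change ‖(_ • _ : V) ⬝ᵥ (_ • _ : V)‖ ≤ Real.exp (-(r μ + r (dl μ)))
  rw [e, smul_dotProduct, dotProduct_smul, norm_pt, norm_pt, pt, pt, ι_dl, ac_dot_ac_dl, ev_dot_ev]
  rw [ι_dl] at hN'
  split_ifs
  · simp [abs_of_pos hN, abs_of_pos hN']
  · simp only [smul_zero, norm_zero]; positivity

end Crest.Agent.N111.T
end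

-- ▼ part N111/T/Flag
section

/-! # Row 111, `TightStmt` (helper6), part 5: the mass does not escape into the regular region -/

set_option autoImplicit false
set_option linter.unusedSectionVars false

namespace Crest.Agent.N111.T

open Topology Filter Set Matrix
open scoped InnerProductSpace

variable {K : Type} [NormedAddCommGroup K] [InnerProductSpace ℂ K] [CompleteSpace K]
  (I : Ind K) (𝒰 : Ultrafilter ℕ)

/-- the limit of the position operators -/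
noncomputable def Wl (F : Γ → ℂ) : K →L[ℂ] K := wlim 𝒰 fun k => I.σ k (I.m F)

variable {I 𝒰} {F F' : Γ → ℂ} {C D : ℝ}

theorem inner_σ (k : ℕ) (T : K →L[ℂ] K) (v w : K) :
    ⟪v, I.σ k T w⟫_ℂ = ⟪I.U (al k) v, T (I.U (al k) w)⟫_ℂ := (I.U.inner_left _ _ _).symm

theorem wt (hF : ∀ μ, ‖F μ‖ ≤ C) : WTends 𝒰 (fun k => I.σ k (I.m F)) (Wl I 𝒰 F) :=
  wtends_wlim 𝒰 (C := C) (.of_forall fun _ => (norm_mul_U _ _).trans ((norm_mul_le _ _).trans
    ((mul_le_of_le_one_left (norm_nonneg _) (I.U.norm_le _)).trans (norm_m_le hF))))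

theorem Wl_lin (hF : ∀ μ, ‖F μ‖ ≤ C) (hF' : ∀ μ, ‖F' μ‖ ≤ D) (c : ℂ) :
    Wl I 𝒰 (fun μ => c * F μ + F' μ) = c • Wl I 𝒰 F + Wl I 𝒰 F' :=
  WTends.wlim_eq fun v w => by
    simpa [inner_σ, m_lin hF hF', inner_add_right, inner_smul_right] using
      ((wt (I := I) (𝒰 := 𝒰) hF v w).const_mul c).add (wt (I := I) (𝒰 := 𝒰) hF' v w)

theorem Wl_one : Wl I 𝒰 (fun _ => 1) = 1 := WTends.wlim_eq fun v w => by simp [inner_σ, m_one]

theorem Wl_mem (hF : ∀ μ, ‖F μ‖ ≤ C) : Wl I 𝒰 F ∈ I.N := fun a ha =>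
  ((wt hF).mul_left a).unique (by
    simpa only [Ind.σ, ← N_conj (m_mem hF) _ a ha] using (wt (I := I) (𝒰 := 𝒰) hF).mul_right a)

theorem Wl_ρ (hF : ∀ μ, ‖F μ‖ ≤ C) (ν : Γ) :
    I.ρ ν * Wl I 𝒰 F * I.ρ ν⁻¹ = Wl I 𝒰 fun μ => F (ν⁻¹ * μ) :=
  (WTends.wlim_eq fun v w => by
    simpa [inner_σ, ← ρ_m hF, I.ρ.inner_right, comm_app (I.Uρ _ _)] using
      wt (I := I) (𝒰 := 𝒰) hF (I.ρ ν⁻¹ v) (I.ρ ν⁻¹ w)).symm

theorem Wl_pos {G : Γ → ℝ} (hG : Bd G) (h : ∀ μ, 0 ≤ G μ) (η : K) :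
    0 ≤ (⟪η, Wl I 𝒰 (fun μ => G μ) η⟫_ℂ).re ∧ (⟪η, Wl I 𝒰 (fun μ => G μ) η⟫_ℂ).im = 0 := by
  obtain ⟨C, hC⟩ := id hG
  have := wt (I := I) (𝒰 := 𝒰) (F := fun μ => G μ) (C := C) (by simpa using hC) η η
  simp only [inner_σ, inner_m_real hG] at this
  exact ⟨ge_of_tendsto' ((Complex.continuous_re.tendsto _).comp this) fun k => av_nonneg h,
    tendsto_nhds_unique ((Complex.continuous_im.tendsto _).comp this) tendsto_const_nhds⟩

variable (hR : ∀ A ∈ Reg, Tendsto (fun k => pm I (xi I k) Aᶜ) 𝒰 (𝓝 0))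
include hR

theorem Wl_zero (hF : ∀ μ, ‖F μ‖ ≤ C) (h : Tendsto F Reg (𝓝 0)) : Wl I 𝒰 F = 0 :=
  WTends.wlim_eq (.of_strong fun v => tendsto_zero_iff_norm_tendsto_zero.2 (by
    simpa [Ind.σ] using (m_lim (k := id) hR Reg_mul hF h v).norm))

theorem Wl_congr (hF : ∀ μ, ‖F μ‖ ≤ C) (hF' : ∀ μ, ‖F' μ‖ ≤ D)
    (h : Tendsto (fun μ => F μ - F' μ) Reg (𝓝 0)) : Wl I 𝒰 F = Wl I 𝒰 F' := by
  simpa [Wl_zero hR (fun μ => norm_sub_le_of_le (hF μ) (hF' μ)) h] using Wl_lin (I := I) (𝒰 := 𝒰)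
    (fun μ => norm_sub_le_of_le (hF μ) (hF' μ)) hF' 1

theorem Wl_U (hF : ∀ μ, ‖F μ‖ ≤ 1) (h : ∀ ν, Tendsto (fun μ => F (μ * ν) - F μ) Reg (𝓝 0))
    {g : G} (hg : ∀ s, Commute g (al s)) : Commute (Wl I 𝒰 F) (I.U g) := by
  refine ContinuousLinearMap.ext_on I.dense ?_
  rintro _ ⟨a, ha, μ, rfl⟩
  refine (innerSL_inj (𝕜 := ℂ)).1 (ContinuousLinearMap.ext_on I.dense ?_)
  rintro _ ⟨b, hb, ν, rfl⟩
  refine (starRingEnd ℂ).injective ?_
  simp only [innerSL_apply_apply, inner_conj_symm]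
  have hB : 0 < (‖a‖ + ‖b‖ + 1) * (1 + ‖I.ξ‖) := by positivity
  obtain ⟨a1, a2⟩ := bes_D ha μ _ (show _ ≤ (‖a‖ + ‖b‖ + 1) * (1 + ‖I.ξ‖) by
    gcongr; linarith [norm_nonneg b])
  obtain ⟨b1, b2⟩ := bes_D hb ν _ (show _ ≤ (‖a‖ + ‖b‖ + 1) * (1 + ‖I.ξ‖) by
    gcongr; linarith [norm_nonneg a])
  have := comm_U (l := 𝒰) g (fun k : ℕ => bes_U b1 (al k)) (fun k : ℕ => bes_U a1 (al k))
    (fun _ => (I.U.norm_map _ _).trans_le b2) (fun _ => (I.U.norm_map _ _).trans_le a2) hB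
    (fun _ => hF) fun ν => av_lim' (k := id) hR Reg_mul
      (fun μ => norm_sub_le_of_le (hF _) (hF _)) (h ν) _
  refine sub_eq_zero.1 (tendsto_nhds_unique
    (((wt hF).mul_right _ _ _).sub ((wt hF).mul_left _ _ _)) (this.congr fun k => ?_))
  have e : ∀ v, I.U g (I.U (al k) v) = I.U (al k) (I.U g v) := comm_app ((hg k).map I.U)
  simp only [mul_apply_eq_comp, inner_σ, I.U.inner_right g, e]
  rw [← comm_app ((hg k).inv_left.map I.U)]

theorem flag (hN : I.NoFlag) : False := by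
  have hb : ∀ (f : C(Sp × Sp, ℂ)) μ, ‖sy f (q μ)‖ ≤ ‖f‖ := fun f μ => norm_sy_le f _
  have hl : ∀ (c : ℂ) (f g : C(Sp × Sp, ℂ)), Wl I 𝒰 (fun μ => sy (c • f + g) (q μ)) =
      c • Wl I 𝒰 (fun μ => sy f (q μ)) + Wl I 𝒰 fun μ => sy g (q μ) := fun c f g => by
    rw [← Wl_lin (hb f) (hb g)]
    congr 1
    funext μ
    simp only [sy, ContinuousMap.add_apply, ContinuousMap.smul_apply, smul_eq_mul]
    ring
  have h0 : Wl I 𝒰 (fun μ => sy 0 (q μ)) = 0 := by simpa using hl 1 0 0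
  obtain ⟨P, hP⟩ := POVM.exists_of_pos (K := K)
    { toFun := fun f => Wl I 𝒰 fun μ => sy f (q μ)
      map_add' := fun f g => by simpa using hl 1 f g
      map_smul' := fun c f => by simpa [h0] using hl c f 0 } (fun f η hf => by
      have e : (fun μ => sy f (q μ)) = fun μ => ((sy f (q μ)).re : ℂ) := funext fun μ =>
        Complex.ext (by simp) (by simp [sy, (hf _).2])
      change 0 ≤ (⟪η, Wl I 𝒰 _ η⟫_ℂ).re ∧ (⟪η, Wl I 𝒰 _ η⟫_ℂ).im = 0
      rw [e]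
      refine Wl_pos ⟨_, fun μ => (Complex.abs_re_le_norm _).trans (hb f μ)⟩ (fun μ => ?_) η
      simp only [sy, Complex.div_ofNat_re, Complex.add_re]
      exact div_nonneg (add_nonneg (add_nonneg (add_nonneg (hf _).1 (hf _).1) (hf _).1) (hf _).1)
        (by norm_num)) (by simpa [sy, show (1 + 1 + 1 + 1 : ℂ) / 4 = 1 by norm_num] using Wl_one)
  replace hP : ∀ f : C(Sp × Sp, ℂ), P.E f = Wl I 𝒰 fun μ => sy f (q μ) := hP
  have hv : Measurable fun z : Sp × Sp => ((z.1 : V), (z.2 : V)) := by fun_prop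
  have hc : ∀ S : K →L[ℂ] K, (∀ f : C(Sp × Sp, ℂ), Commute (P.E f) S) →
      ∀ f, BM f → Commute (P.E f) S := fun S h f hf => by
    simpa [commute_iff_eq] using (P.isPoly1.mul 1 S).ext_cont (P.isPoly1.mul S 1)
      (fun f hf _ => by simpa using (h ⟨f, hf⟩).eq) f hf
  have hU : ∀ g : G, (∀ s, Commute g (al s)) → ∀ f, BM f → Commute (P.E f) (I.U g) :=
    fun g hg => hc _ fun f => by
      have h1 : 0 < ‖f‖ + 1 := by positivity
      have e : f = ((‖f‖ + 1 : ℝ) : ℂ) • ((‖f‖ + 1 : ℝ) : ℂ)⁻¹ • f + 0 := by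
        rw [smul_inv_smul₀ (by exact_mod_cast h1.ne'), add_zero]
      rw [hP, e, hl, h0, add_zero]
      refine (Wl_U hR (fun μ => (hb _ μ).trans ?_) (sy_right _) hg).smul_left _
      rw [norm_smul, norm_inv, Complex.norm_real, Real.norm_of_nonneg h1.le, inv_mul_le_iff₀ h1]
      linarith
  have ht : ∀ (i k : Fin 3) (h : i ≠ k) (b : ℝ), i ≠ 0 → k ≠ 0 → ∀ s, Commute (tv h b) (al s) :=
    fun i k h b hi hk s => by
      have := dg_conj_tv (-2 * s) s h b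
      rw [show dgl (-2 * s) s i - dgl (-2 * s) s k = 0 by
        fin_cases i <;> fin_cases k <;> simp [dgl] at hi hk ⊢ <;> ring, Real.exp_zero, one_mul,
        mul_inv_eq_iff_eq_mul] at this
      exact this.symm
  refine hN (P.map _ hv) ?_ (fun f hf a ha => (hc a (fun f => hP f ▸ (Wl_mem (hb f) a ha).symm) _
    (hf.comp hv)).symm) (fun f hf b => ⟨hU _ (ht _ _ _ b (by decide) (by decide)) _ (hf.comp hv),
      hU _ (ht _ _ _ b (by decide) (by decide)) _ (hf.comp hv)⟩) fun f hf _ ν => ?_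
  · let g : C(Sp × Sp, ℂ) := ⟨fun z => ((((z.1 : V) ⬝ᵥ (z.2 : V)) ^ 2 : ℝ) : ℂ), by fun_prop⟩
    have hO : MeasurableSet {z : V × V | ‖z.1‖ = 1 ∧ ‖z.2‖ = 1 ∧ z.1 ⬝ᵥ z.2 = 0} := by
      refine IsClosed.measurableSet ?_
      exact (isClosed_eq (by fun_prop) continuous_const).inter
        ((isClosed_eq (by fun_prop) continuous_const).inter (isClosed_eq (by fun_prop)
          continuous_const))
    have h1 : P.E g = 0 := by
      rw [hP]
      refine Wl_zero hR (hb g) ?_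
      have e : ∀ z, sy g z = g z := fun z => by simp [sy, g]; ring
      simp only [e]
      simpa [g] using (dot_q.pow 2).ofReal
    have h2 := P.mul_E_eq_zero (.of_continuous g.continuous g.norm_coe_le_norm)
      (fun _ => sq_nonneg _) (T := 1) (by rw [one_mul]; exact h1)
      ((BM.const 1).sub ((BM.ic hO).comp hv)) fun z hz => by
        rw [ic_of_mem (by exact ⟨by simp, by simp, by simpa using hz⟩), sub_self]
    rw [one_mul, P.E_sub (.const 1) ((BM.ic hO).comp hv), P.E_one, sub_eq_zero] at h2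
    exact h2.symm
  · refine (P.isPoly1.mul _ _).ext_cont (P.map _ (ψ ν⁻¹).measurable).isPoly1 (fun f hf _ => ?_) _
      (hf.comp hv)
    refine (congrArg (_ * · * _) (hP ⟨f, hf⟩)).trans (.trans ?_
      (hP (ContinuousMap.comp ⟨f, hf⟩ (ψ ν⁻¹))).symm)
    rw [Wl_ρ (hb _)]
    exact Wl_congr hR (fun μ => hb _ _) (hb _) (by simpa [sy_comp] using sy_close ⟨f, hf⟩ ν⁻¹ 1)

end Crest.Agent.N111.T
end

-- ▼ part N111/T/Main
section

/-! # Row 111 (helper6): `tight : TightStmt` -/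

set_option autoImplicit false

namespace Crest.Agent.N111

open Topology Filter Set T

theorem T.freq_switch {P : ℕ → Prop} (h : ∃ᶠ k in atTop, P k) (h' : ∃ᶠ k in atTop, ¬ P k) :
    ∃ᶠ k in atTop, P k ∧ ¬ P (k + 1) := fun hc => by
  obtain ⟨a, ha⟩ := eventually_atTop.1 hc
  obtain ⟨b, hb, hP⟩ := frequently_atTop.1 h a
  refine h' (eventually_atTop.2 ⟨b, fun c hc => not_not.2 ?_⟩)
  induction hc with
  | refl => exact hP
  | step hm ih => exact not_not.1 fun e => ha _ (hb.trans hm) ⟨ih, e⟩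

theorem tight : TightStmt := by
  intro K _ _ _ I hC hN
  have hM := M_pos I
  have h0 : ∀ μ, 0 ≤ u μ := fun μ => Real.log_nonneg (one_le_nm μ)
  have hu : ∀ μ, u (dl μ) = Real.log (nm (ι μ⁻¹)) := fun μ => by rw [u, ι_dl, nm_dl, map_inv]
  obtain ⟨a, ha⟩ := exists_center hC lip_u h0
  obtain ⟨b, hb⟩ := exists_center hC lip_u.dl fun μ => h0 _
  have win : ∀ ε > 0, ∃ R, ∀ k (A : Set Γ),
      (∀ μ, |u μ - a k| ≤ R → |u (dl μ) - b k| ≤ R → μ ∉ A) → pm I (xi I k) A ≤ ε := fun ε hε => by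
    obtain ⟨R, h1⟩ := ha _ (half_pos hε)
    obtain ⟨R', h2⟩ := hb _ (half_pos hε)
    refine ⟨max R R', fun k A h => (pm_le _ fun μ hμ => ?_).trans
      ((add_le_add (h1 k) (h2 k)).trans_eq (add_halves ε))⟩
    by_contra hc
    simp only [mem_union, mem_ofPred_eq, not_or, not_lt] at hc
    exact h μ (hc.1.trans (le_max_left _ _)) (hc.2.trans (le_max_right _ _)) hμ
  have esc : ∀ {w : Γ → ℝ} {c : ℕ → ℝ}, (∀ B, {μ | w μ ≤ B}.Finite) →
      (∀ ε > 0, ∃ R, ∀ k, pm I (xi I k) {μ | R < |w μ - c k|} ≤ ε) → Tendsto c atTop atTop := by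
    intro w c hf h
    obtain ⟨R, h⟩ := h _ (half_pos hM)
    refine tendsto_atTop.2 fun B => ((escape (I := I) (hf (B + R)).toFinset).eventually
      (gt_mem_nhds (half_pos hM))).mono fun k hk => not_lt.1 fun hc => ?_
    have h1 := pm_compl (I := I) (η := xi I k) (hf (B + R)).toFinset
    have h2 := (pm_mono (A := ((hf (B + R)).toFinset : Set Γ)ᶜ) (B := {μ | R < |w μ - c k|})
      fun μ hμ => by
      simp only [Finite.coe_toFinset, mem_compl_iff, mem_ofPred_eq, not_le] at hμ ⊢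
      exact lt_abs.2 (.inl (by linarith))).trans (h k)
    rw [norm_xi] at h1
    linarith
  have fin : ∀ B, {μ | u μ ≤ B}.Finite := fun B => (finite_nm_le (Real.exp B)).subset fun μ hμ =>
    (Real.log_le_iff_le_exp (nm_pos _)).1 hμ
  have ta := esc fin ha
  have tb := esc (fun B => (fin B).preimage (f := dl)
    (Function.Involutive.injective dl_dl).injOn) hb
  obtain ⟨C, hw⟩ : ∃ C, ∀ᶠ k in atTop, 2 * a k - b k ≤ C ∨ 2 * b k - a k ≤ C := by
    by_contra hc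
    simp only [not_exists, not_eventually, not_or, not_le] at hc
    obtain ⟨φ, -, hφ⟩ := extraction_forall_of_frequently fun n : ℕ => hc n
    refine flag (𝒰 := (hyperfilter ℕ).map φ) (fun A hA => ?_) hN
    obtain ⟨_, ⟨s, hs, e⟩, _, ⟨t, ht, e'⟩, rfl⟩ := hA
    obtain ⟨D, hs⟩ := mem_atTop_sets.1 hs
    obtain ⟨D', ht⟩ := mem_atTop_sets.1 ht
    refine tendsto_map'_iff.2 (Tendsto.mono_left (NormedAddGroup.tendsto_nhds_zero.2
      fun ε hε => ?_) Nat.hyperfilter_le_atTop)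
    obtain ⟨R, h⟩ := win _ (half_pos hε)
    filter_upwards [eventually_ge_atTop ⌈max D D' + 3 * R⌉₊] with n hn
    have h1 := (Nat.le_ceil _).trans (Nat.cast_le.2 hn)
    have := le_max_left D D'
    have := le_max_right D D'
    rw [Function.comp_apply, Real.norm_of_nonneg pm_nonneg]
    refine (h _ _ fun μ h2 h3 => not_not.2 ⟨e (hs _ ?_), e' (ht _ ?_)⟩).trans_lt (half_lt_self hε)
    all_goals
      simp only [r, dl_dl]
      linarith [abs_le.1 h2, abs_le.1 h3, hφ n]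
  have h1 : (∀ᶠ k in atTop, b k < a k) ∨ ∀ᶠ k in atTop, ¬ b k < a k := by
    by_contra hc
    simp only [not_or, not_eventually, not_not] at hc
    obtain ⟨R, h⟩ := win _ (show 0 < ‖I.ξ‖ ^ 2 / 4 by positivity)
    obtain ⟨φ, -, hφ⟩ := extraction_forall_of_frequently fun n : ℕ =>
      (freq_switch hc.2 hc.1).and_eventually ((hw.and (ta.eventually_ge_atTop
        (C + 4 * |R| + 2 * n + 2))).and ((tendsto_add_atTop_nat 1).eventually
          (hw.and (tb.eventually_ge_atTop (C + 4 * |R| + 1)))))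
    have hw := lip_u.add lip_u.dl.neg
    obtain ⟨n, hn⟩ := ((drift (I := I) φ (fun n => cl_mem _ 0 n) fun ν ε hε =>
      (hw.slow (fun _ => 0) ν ε hε).mono fun n h μ => (h μ).2).eventually
        (lt_mem_nhds (show -(‖I.ξ‖ ^ 2 / 4) < 0 by linarith))).exists
    obtain ⟨⟨p1, p2⟩, ⟨p3, p4⟩, p5, p6⟩ := hφ n
    have hR := le_abs_self R
    have hR' := abs_nonneg R
    have hn' : (0 : ℝ) ≤ n := n.cast_nonneg
    have q1 := av_le (I := I) (η := xi I (φ n + 1)) (A := {μ | 0 < u μ + -u (dl μ)})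
      (.icc (cl_mem (fun μ => u μ + -u (dl μ)) 0 n)) le_rfl (fun μ => (cl_mem _ _ _ μ).2)
      fun μ hμ => (cl_zero (not_lt.1 hμ)).le
    have q2 := h (φ n + 1) {μ | 0 < u μ + -u (dl μ)} fun μ h2 h3 h4 => by
      rw [mem_ofPred_eq] at h4
      rcases p5 with e | e <;> linarith [abs_le.1 h2, abs_le.1 h3, not_lt.1 p2]
    have q3 := h (φ n) {μ | 0 + (n + 1) ≤ u μ + -u (dl μ)}ᶜ fun μ h2 h3 h4 => h4 (by
      rw [mem_ofPred_eq]
      rcases p3 with e | e <;> linarith [abs_le.1 h2, abs_le.1 h3])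
    have q4 := pm_compl (I := I) (η := xi I (φ n)) {μ | 0 + (n + 1) ≤ u μ + -u (dl μ)}
    have q5 : pm I (xi I (φ n)) {μ | 0 + (n + 1) ≤ u μ + -u (dl μ)} ≤ _ :=
      av_mono (.ind _) (.icc (cl_mem (fun μ => u μ + -u (dl μ)) 0 n)) fun μ =>
        indicator_apply_le' (fun h => (cl_one h).ge) fun _ => (cl_mem _ _ _ μ).1
    rw [norm_xi] at q4
    linarith
  rcases h1 with h1 | h1
  · refine ⟨fun k => a k / 2, .inl ⟨ta.atTop_div_const two_pos, fun ε hε => ?_⟩⟩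
    obtain ⟨R, h⟩ := win ε hε
    refine ⟨R + |C|, ((hw.and h1).and (ta.eventually_gt_atTop C)).mono fun k hk =>
      h k _ fun μ h2 h3 => not_not.2 ⟨?_, ?_⟩⟩
    · rw [mul_div_cancel₀ _ two_ne_zero]
      exact h2.trans (le_add_of_nonneg_right (abs_nonneg C))
    · rw [← hu]
      rcases hk.1.1 with e | e <;> linarith [abs_le.1 h3, hk.1.2, hk.2, le_abs_self C, abs_nonneg C]
  · refine ⟨fun k => b k / 2, .inr fun I' hI => ⟨tb.atTop_div_const two_pos, fun ε hε => ?_⟩⟩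
    obtain ⟨R, h⟩ := win ε hε
    refine ⟨R + |C|, ((hw.and h1).and (tb.eventually_gt_atTop C)).mono fun k hk => le_trans
      (le_of_eq ?_) (h k (dl ⁻¹' (Sh (b k / 2) (R + |C|))ᶜ) fun μ h2 h3 => not_not.2 ⟨?_, ?_⟩)⟩
    · rw [Ind.ms, pm, av, ← (RelAux.invE dl dl_dl).tsum_eq]
      refine tsum_congr fun μ => ?_
      change _ * ‖I'.j (I'.ρ (dl μ)⁻¹ _)‖ ^ 2 = _
      rw [hI.j, hI.ρ, hI.U, hI.ξ, ← map_inv, dl_dl]
      simp only [one_mul, mul_one, one_apply_eq_self]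
      rfl
    · rw [mul_div_cancel₀ _ two_ne_zero]
      exact h3.trans (le_add_of_nonneg_right (abs_nonneg C))
    · rw [← hu, dl_dl]
      rcases hk.1.1 with e | e <;> linarith [abs_le.1 h2, hk.1.2, hk.2, le_abs_self C, abs_nonneg C]

end Crest.Agent.N111
end

-- ▼ part N111/E/Int
section

/-! # Row 111: the intertwiner lines and the one parameter group of the lift (fill the proofs IN PLACE). -/

set_option autoImplicit false
set_option linter.unusedSectionVars false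
set_option linter.unusedVariables false

namespace Crest.Agent.N111

open MeasureTheory Topology Filter Matrix
open scoped InnerProductSpace

variable {K : Type} [NormedAddCommGroup K] [InnerProductSpace ℂ K] [CompleteSpace K]

namespace IntAux

theorem cz_zero (g : G) : cz g 0 = fun _ => 1 := funext fun a => by simp [cz]

theorem cz_add (g : G) (s t : ℝ) : cz g (s + t) = fun a => cz g s a * cz g t a :=
  funext fun a => by rw [cz, cz, cz, add_mul, ex_add]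

theorem cz_neg (g : G) (t : ℝ) : (fun a => (starRingEnd ℂ) (cz g t a)) = cz g (-t) :=
  funext fun a => by rw [cz, cz, conj_ex, neg_mul]

theorem entry_of_ev0 {q : G} {z : ℝ} (hq : ac q (ev 0) = z • ev 0) :
    q 0 0 = z ∧ q 1 0 = 0 ∧ q 2 0 = 0 :=
  ⟨by simpa [ac_ev, ev] using (ac_ev q 0 0).symm.trans (congrFun hq 0),
    by simpa [ac_ev, ev] using (ac_ev q 0 1).symm.trans (congrFun hq 1),
    by simpa [ac_ev, ev] using (ac_ev q 0 2).symm.trans (congrFun hq 2)⟩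

theorem ne_zero_of_ev0 {q : G} {z : ℝ} (hq : ac q (ev 0) = z • ev 0) : z ≠ 0 := by
  rintro rfl
  exact ac_ne_zero q (ev_ne_zero 0) (by rw [hq, zero_smul])

theorem tv_mul_par {q : G} {z : ℝ} (hq : ac q (ev 0) = z • ev 0) {k : Fin 3} (h : (0 : Fin 3) ≠ k)
    (b : ℝ) : tv h b * q = q * tv (show (0 : Fin 3) ≠ 1 by decide) (b * q k 1 / z)
      * tv (show (0 : Fin 3) ≠ 2 by decide) (b * q k 2 / z) := by
  obtain ⟨h0, h1, h2⟩ := entry_of_ev0 hq
  have hz := ne_zero_of_ev0 hq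
  have hk : q k 0 = 0 := by fin_cases k <;> simp_all
  ext p l
  simp only [mul_tv_apply, tv_mul_apply]
  fin_cases p <;> fin_cases l <;> simp [h0, h1, h2, hk, hz]

theorem scalar_eq {T : K →L[ℂ] K} {c : ℂ} {ξ : K} (hξ : ξ ≠ 0) (h : star T * T = c • 1) :
    c = ((‖T‖ ^ 2 : ℝ) : ℂ) := by
  have : Nontrivial K := ⟨⟨ξ, 0, hξ⟩⟩
  have h1 : ‖c‖ = ‖T‖ ^ 2 := by
    rw [sq, ← CStarRing.norm_star_mul_self, h, norm_smul, norm_one, mul_one]
  have h2 : c * ((‖ξ‖ ^ 2 : ℝ) : ℂ) = ((‖T ξ‖ ^ 2 : ℝ) : ℂ) := by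
    have h3 : ⟪ξ, (star T * T) ξ⟫_ℂ = ⟪T ξ, T ξ⟫_ℂ := by
      rw [mul_apply_eq_comp, ContinuousLinearMap.star_eq_adjoint,
        ContinuousLinearMap.adjoint_inner_right]
    rw [h, _root_.smul_apply, one_apply_eq_self, inner_smul_right, inner_self_eq_norm_sq_to_K,
      inner_self_eq_norm_sq_to_K] at h3
    push_cast
    exact h3
  have h4 : (0 : ℝ) < ‖ξ‖ ^ 2 := by have := norm_pos_iff.2 hξ; positivity
  have h5 : c = ((‖T ξ‖ ^ 2 / ‖ξ‖ ^ 2 : ℝ) : ℂ) := by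
    rw [Complex.ofReal_div, eq_div_iff (by exact_mod_cast h4.ne'), h2]
  rw [← h1, h5, Complex.norm_real, Real.norm_of_nonneg (by positivity)]

omit [CompleteSpace K] in
theorem norm_le_of_wtends {α : Type*} {l : Filter α} [l.NeBot] {T : α → K →L[ℂ] K}
    {T₀ : K →L[ℂ] K} (h : WTends l T T₀) {ξ : K} {C : ℝ} (hC : ∀ᶠ a in l, ‖T a ξ‖ ≤ C) :
    ‖T₀ ξ‖ ≤ C := by
  have hC0 : 0 ≤ C := by obtain ⟨a, ha⟩ := hC.exists; exact (norm_nonneg _).trans ha
  have h1 : ‖⟪T₀ ξ, T₀ ξ⟫_ℂ‖ ≤ ‖T₀ ξ‖ * C :=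
    le_of_tendsto (h (T₀ ξ) ξ).norm (hC.mono fun a ha =>
      (norm_inner_le_norm _ _).trans (by gcongr))
  rw [inner_self_eq_norm_sq_to_K, norm_pow, RCLike.norm_ofReal, abs_norm, sq] at h1
  rcases (norm_nonneg (T₀ ξ)).eq_or_lt with h0 | h0
  · rwa [← h0]
  · exact le_of_mul_le_mul_left h1 h0

omit [CompleteSpace K] in
theorem wtends_sub {α : Type*} {l : Filter α} {S T : α → K →L[ℂ] K} {S₀ T₀ : K →L[ℂ] K}
    (hS : WTends l S S₀) (hT : WTends l T T₀) : WTends l (fun a => S a - T a) (S₀ - T₀) :=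
  fun w v => by simpa only [_root_.sub_apply, inner_sub_right] using (hS w v).sub (hT w v)

theorem ex_inj {l l' : ℝ} (h : ∀ t, ex (l * t) = ex (l' * t)) : l = l' := by
  refine sub_eq_zero.1 (eq_zero_of_ex_div fun q => ?_)
  have e : (l - l') / (q + 1) = l * (1 / (q + 1)) + -(l' * (1 / (q + 1))) := by ring
  rw [e, ex_add, h, ← ex_add, add_neg_cancel, ex_zero]

theorem exists_dg_two {i k : Fin 3} (h : i ≠ k) :
    ∃ a c : ℝ, Real.exp (dgl a c i - dgl a c k) = 2 := by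
  have key : ∃ a c : ℝ, dgl a c i - dgl a c k = Real.log 2 := by
    fin_cases i <;> fin_cases k
    · exact (h rfl).elim
    · exact ⟨Real.log 2, 0, by simp [dgl]⟩
    · exact ⟨0, Real.log 2, by simp [dgl]⟩
    · exact ⟨0, Real.log 2, by simp [dgl]⟩
    · exact (h rfl).elim
    · exact ⟨Real.log 2, 0, by simp [dgl]⟩
    · exact ⟨0, -Real.log 2, by simp [dgl]⟩
    · exact ⟨-Real.log 2, 0, by simp [dgl]⟩
    · exact (h rfl).elim
  obtain ⟨a, c, e⟩ := key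
  exact ⟨a, c, by rw [e, Real.exp_log two_pos]⟩

theorem ac_dg_ev0 (a c : ℝ) : ac (dg a c) (ev 0) = Real.exp a • ev 0 := by
  funext i
  rw [ac_dg]
  fin_cases i <;> simp [ev, dgl]

end IntAux

open IntAux

namespace Ind

variable (I : Ind K) (Φ : V → POVM V K)

/-- the intertwiners of weight `t` -/
def Int (t : ℝ) : Set (K →L[ℂ] K) :=
  {T | T ∈ I.N ∧ (∀ f, BM f → Commute T ((Φ (ev 0)).E f)) ∧
    (∀ ν : Γ, I.ρ ν * T * I.ρ ν⁻¹ = T * (Φ (ev 0)).E (cz (ι ν⁻¹) t)) ∧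
    ∀ (k : Fin 3) (h : (0 : Fin 3) ≠ k) (b : ℝ), Commute T (I.U (tv h b))}

variable {I Φ} {L : ℕ → ℝ} {s t : ℝ} {S T : K →L[ℂ] K}

theorem IsPro.int_one (h : I.IsPro Φ) : (1 : K →L[ℂ] K) ∈ I.Int Φ 0 :=
  ⟨I.one_N, fun _ _ => Commute.one_left _, fun ν => by
    rw [cz_zero, POVM.E_one, mul_one, mul_one, URep.mul_inv_self], fun _ _ _ => Commute.one_left _⟩
theorem IsPro.int_smul (h : I.IsPro Φ) (hT : T ∈ I.Int Φ t) (c : ℂ) : c • T ∈ I.Int Φ t :=
  ⟨smul_N c hT.1, fun f hf => (hT.2.1 f hf).smul_left c, fun ν => by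
    rw [mul_smul_comm, smul_mul_assoc, hT.2.2.1, smul_mul_assoc],
    fun k hk b => (hT.2.2.2 k hk b).smul_left c⟩
theorem IsPro.int_mul (h : I.IsPro Φ) (hS : S ∈ I.Int Φ s) (hT : T ∈ I.Int Φ t) :
    S * T ∈ I.Int Φ (s + t) := by
  refine ⟨mul_N hS.1 hT.1, fun f hf => (hS.2.1 f hf).mul_left (hT.2.1 f hf), fun ν => ?_,
    fun k hk b => (hS.2.2.2 k hk b).mul_left (hT.2.2.2 k hk b)⟩
  have e : I.ρ ν * (S * T) * I.ρ ν⁻¹ = (I.ρ ν * S * I.ρ ν⁻¹) * (I.ρ ν * T * I.ρ ν⁻¹) := by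
    simp only [mul_assoc]
    rw [← mul_assoc (I.ρ ν⁻¹), URep.inv_mul_self, one_mul]
  rw [e, hS.2.2.1, hT.2.2.1, cz_add, h.pvm _ _ _ (bm_cz _ _) (bm_cz _ _), mul_assoc, mul_assoc,
    ← mul_assoc _ T, ← (hT.2.1 _ (bm_cz _ s)).eq, mul_assoc]
theorem IsPro.int_star (h : I.IsPro Φ) (hT : T ∈ I.Int Φ t) : star T ∈ I.Int Φ (-t) := by
  have hc : ∀ f, BM f → Commute (star T) ((Φ (ev 0)).E f) := fun f hf => by
    have := (hT.2.1 _ hf.conj).star_star
    rwa [POVM.E_star _ hf.conj, show (fun y => (starRingEnd ℂ) ((starRingEnd ℂ) (f y))) = f from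
      funext fun y => Complex.conj_conj _] at this
  refine ⟨star_N hT.1, hc, fun ν => ?_, fun k hk b => ?_⟩
  · have := congrArg star (hT.2.2.1 ν)
    rw [star_mul, star_mul, star_mul, URep.star_apply, URep.star_apply, inv_inv,
      POVM.E_star _ (bm_cz _ _), cz_neg, ← (hc _ (bm_cz _ _)).eq, ← mul_assoc] at this
    exact this
  · have := (hT.2.2.2 k hk (-b)).star_star
    rwa [URep.star_apply, tv_inv, neg_neg] at this
theorem IsPro.int_zero (h : I.IsPro Φ) (hT : T ∈ I.Int Φ 0) : ∃ c : ℂ, T = c • 1 := by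
  refine I.erg_Q ⟨hT.1, fun ν => ?_⟩ (show (0 : Fin 3) ≠ 1 by decide) (hT.2.2.2 _ _)
  have h1 := hT.2.2.1 ν
  rw [cz_zero, POVM.E_one, mul_one] at h1
  have h2 := congrArg (· * I.ρ ν) h1
  simp only [mul_assoc, URep.inv_mul_self, mul_one] at h2
  exact h2.symm
theorem IsPro.int_conj (h : I.IsPro Φ) (hT : T ∈ I.Int Φ t) {q : G} {z : ℝ}
    (hq : ac q (ev 0) = z • ev 0) : I.U q * T * I.U q⁻¹ ∈ I.Int Φ t := by
  have hc : ∀ f, BM f → Commute (I.U q) ((Φ (ev 0)).E f) := fun f hf =>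
    (h.pre.commute (ev_ne_zero 0) hq hf).symm
  have inv : ∀ {A : K →L[ℂ] K}, Commute (I.U q) A → Commute (I.U q⁻¹) A := fun {A} hA => by
    have h1 : I.U q⁻¹ * (I.U q * A) * I.U q⁻¹ = I.U q⁻¹ * (A * I.U q) * I.U q⁻¹ := by rw [hA.eq]
    rw [← mul_assoc, URep.inv_mul_self, one_mul, mul_assoc, mul_assoc, URep.mul_inv_self,
      mul_one] at h1
    exact h1.symm
  refine ⟨conj_N hT.1 q, fun f hf => ((hc f hf).mul_left (hT.2.1 f hf)).mul_left (inv (hc f hf)),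
    fun ν => ?_, fun k hk b => ?_⟩
  · have e : I.ρ ν * (I.U q * T * I.U q⁻¹) * I.ρ ν⁻¹ = I.U q * (I.ρ ν * T * I.ρ ν⁻¹) * I.U q⁻¹ := by
      simp only [← mul_assoc, ← (I.Uρ q ν).eq]
      simp only [mul_assoc, (I.Uρ q⁻¹ ν⁻¹).eq]
    rw [e, hT.2.2.1]
    simp only [mul_assoc, (inv (hc _ (bm_cz _ _))).eq]
  · have e := tv_mul_par hq hk b
    set u : G := tv (show (0 : Fin 3) ≠ 1 by decide) (b * q k 1 / z)
      * tv (show (0 : Fin 3) ≠ 2 by decide) (b * q k 2 / z) with hu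
    have hTu : Commute T (I.U u) := by
      rw [hu, map_mul]; exact (hT.2.2.2 _ _ _).mul_right (hT.2.2.2 _ _ _)
    have e' : tv hk b = q * u * q⁻¹ := by rw [hu, ← mul_assoc, ← e, mul_inv_cancel_right]
    rw [e', map_mul, map_mul]
    change _ * _ = _ * _
    simp only [mul_assoc]
    rw [← mul_assoc (I.U q⁻¹), ← mul_assoc (I.U q⁻¹), URep.inv_mul_self, one_mul, one_mul,
      ← mul_assoc T, hTu.eq, mul_assoc]
theorem IsPro.int_star_mul (h : I.IsPro Φ) (hT : T ∈ I.Int Φ t) :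
    star T * T = ((‖T‖ ^ 2 : ℝ) : ℂ) • 1 ∧ T * star T = ((‖T‖ ^ 2 : ℝ) : ℂ) • 1 := by
  constructor
  · obtain ⟨c, hc⟩ := h.int_zero (by simpa using h.int_mul (h.int_star hT) hT)
    rw [hc, scalar_eq I.ξ_ne hc]
  · obtain ⟨c, hc⟩ := h.int_zero (by simpa using h.int_mul hT (h.int_star hT))
    have := scalar_eq (T := star T) I.ξ_ne (by rw [star_star]; exact hc)
    rw [hc, this, norm_star]
theorem IsPro.int_unit (h : I.IsPro Φ) (hT : T ∈ I.Int Φ t) (h0 : T ≠ 0) :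
    ((‖T‖ : ℂ)⁻¹ • T) ∈ unitary (K →L[ℂ] K) := by
  have hn : (‖T‖ : ℂ) ≠ 0 := by exact_mod_cast norm_ne_zero_iff.2 h0
  have e : (‖T‖ : ℂ)⁻¹ * ((‖T‖ : ℂ)⁻¹ * ((‖T‖ ^ 2 : ℝ) : ℂ)) = 1 := by
    push_cast; field_simp
  have hs : star ((‖T‖ : ℂ)⁻¹) = (‖T‖ : ℂ)⁻¹ := by simp
  rw [Unitary.mem_iff, star_smul, hs]
  simp only [smul_mul_assoc, mul_smul_comm, (h.int_star_mul hT).1, (h.int_star_mul hT).2, smul_smul,
    e, one_smul, and_self]
theorem IsPro.int_line (h : I.IsPro Φ) (hS : S ∈ I.Int Φ t) (hT : T ∈ I.Int Φ t)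
    (hu : T ∈ unitary (K →L[ℂ] K)) : ∃ c : ℂ, S = c • T := by
  obtain ⟨c, hc⟩ := h.int_zero (by simpa using h.int_mul hS (h.int_star hT))
  refine ⟨c, ?_⟩
  rw [← mul_one S, ← (Unitary.mem_iff.1 hu).1, ← mul_assoc, hc, smul_mul_assoc, one_mul]
theorem IsPro.int_norm (h : I.IsPro Φ) (hT : T ∈ I.Int Φ t) (η : K) : ‖T η‖ = ‖T‖ * ‖η‖ := by
  by_cases h0 : T = 0
  · simp [h0]
  have h1 := ContinuousLinearMap.norm_map_of_mem_unitary (h.int_unit hT h0) η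
  rw [_root_.smul_apply, norm_smul, norm_inv, Complex.norm_real, norm_norm] at h1
  rw [← h1, ← mul_assoc, mul_inv_cancel₀ (norm_ne_zero_iff.2 h0), one_mul]

/-- the weak limits of the level functions -/
theorem IsPro.exists_level (h : I.IsPro Φ) (hL : I.Tight L) (l : Ultrafilter ℕ)
    (hl : (l : Filter ℕ) ≤ atTop) : ∃ T : ℝ → K →L[ℂ] K, T 0 = 1 ∧
      (∀ η, Continuous fun t => T t η) ∧ ∀ t, T t ∈ I.Int Φ t ∧ T t ∈ I.LimSet ∧
      WTends l (fun k => I.σ k (I.m fun μ => ex (t * (Real.log (nm (ι μ)) - 2 * L k)))) (T t) := by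
  set F : ℝ → ℕ → Γ → ℂ := fun t k μ => ex (t * (Real.log (nm (ι μ)) - 2 * L k)) with hF
  have nF : ∀ t k μ, ‖F t k μ‖ ≤ 1 := fun t k μ => (norm_ex _).le
  have bF : ∀ t k, BM (F t k) := fun t k => bm_Γ (nF t k)
  have hex : ∀ t, ∃ T, WTends l (fun k => I.σ k (I.m (F t k))) T := fun t => by
    obtain ⟨T, -, hT⟩ := exists_wtends l (T := fun k => I.σ k (I.m (F t k))) (C := 1)
      (Eventually.of_forall fun k => by rw [norm_σ]; exact I.norm_m_le zero_le_one (nF t k))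
    exact ⟨T, hT⟩
  choose T hT using hex
  have hlim : ∀ t, T t ∈ I.LimSet := fun t => ⟨l, F t, inferInstance, hl, nF t, hT t⟩
  refine ⟨T, ?_, fun η => ?_, fun t => ⟨⟨?_, fun f hf => ?_, fun ν => ?_,
    fun k hk b => limSet_commute (hlim t) hk b⟩, hlim t, hT t⟩⟩
  · refine (hT 0).unique fun w v => ?_
    have e : ∀ k, I.σ k (I.m (F 0 k)) = 1 := fun k => by
      have : F 0 k = fun _ => 1 := funext fun μ => by simp [hF]
      rw [this, m_one, σ_one]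
    simp only [e]
    exact tendsto_const_nhds
  · refine continuous_iff_continuousAt.2 fun s => Metric.tendsto_nhds.2 fun ε hε => ?_
    obtain ⟨R, hR⟩ := hL.seq η (ε / 4) (by positivity)
    have hc : Tendsto (fun t => |t - s| * |R| * ‖η‖) (𝓝 s) (𝓝 0) := by
      have : Continuous fun t => |t - s| * |R| * ‖η‖ := by fun_prop
      simpa using this.tendsto s
    filter_upwards [hc.eventually (gt_mem_nhds (show (0 : ℝ) < ε / 4 by positivity))] with t ht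
    rw [dist_eq_norm, ← _root_.sub_apply]
    refine lt_of_le_of_lt (IntAux.norm_le_of_wtends (wtends_sub (hT t) (hT s))
      (C := |t - s| * |R| * ‖η‖ + 2 * (ε / 4)) ?_) (by linarith)
    filter_upwards [hl hR] with k hk
    rw [← σ_sub, norm_σ_apply, ← mP_E, ← POVM.E_sub _ (bF t k) (bF s k), mP_E]
    refine (I.norm_m_apply_le _ _).trans ((I.norm_mJ_le_split (S := Sh (L k) R) (ε := |t - s| * |R|)
      (C := 2) (by positivity) zero_le_two (fun μ hμ => ?_) (fun μ => ?_) _).trans ?_)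
    · refine (norm_ex_sub_ex_le _ _).trans ?_
      rw [← sub_mul, abs_mul]
      exact mul_le_mul_of_nonneg_left (hμ.1.trans (le_abs_self R)) (abs_nonneg _)
    · exact (norm_sub_le _ _).trans (by linarith [nF t k μ, nF s k μ])
    · rw [URep.norm_map]
      linarith
  · exact wtends_N (Eventually.of_forall fun k => I.σ_N (I.m_N (bF t k)) k) (hT t)
  · refine (h.proj _).commute (fun g hg h0 hc => ?_) hf
    have := h.wtends_mul hg h0 hc hl (nF t) (hT t)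
    exact this.1.unique this.2
  · have h1 : WTends l (fun k => I.σ k (I.m fun μ => F t k (ν⁻¹ * μ))) (I.ρ ν * T t * I.ρ ν⁻¹) := by
      have := ((hT t).mul_left (I.ρ ν)).mul_right (I.ρ ν⁻¹)
      simpa only [ρ_σ, I.ρ_m (bF t _)] using this
    have h2 := (h.wtends_mul (bm_cz (ι ν⁻¹) t) (hom0_cz _ _) (continuousOn_cz _ _) hl (nF t)
      (hT t)).1
    refine sub_eq_zero.1 ((wtends_sub h1 h2).unique (WTends.of_strong fun η => ?_))
    have nG : ∀ k μ, ‖F t k (ν⁻¹ * μ) - F t k μ * cz (ι ν⁻¹) t (pt μ)‖ ≤ 2 := fun k μ => by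
      refine (norm_sub_le _ _).trans ?_
      rw [norm_mul, cz, norm_ex (t * (_ - Real.log ‖pt μ‖)), mul_one]
      linarith [nF t k (ν⁻¹ * μ), nF t k μ]
    have h3 := ((hL.seq η).mono hl).tendsto_mJ (C := ‖η‖)
      (Eventually.of_forall fun k => (URep.norm_map _ _ _).le) nG fun R ε hε => by
        have h4 := (hL.1.mono_left hl).eventually
          (cov_nm ν⁻¹ R (ε := ε / (|t| + 1)) (by positivity))
        filter_upwards [h4] with k hk μ hμ
        simp only [hF, cz, ← ex_add]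
        refine (norm_ex_sub_ex_le _ _).trans ?_
        have h5 := hk μ hμ
        have h6 : Real.log ‖ac (ι ν⁻¹) (nrm (pt μ))‖
            = Real.log ‖ac (ι ν⁻¹) (pt μ)‖ - Real.log ‖pt μ‖ := by
          rw [nrm, ac_smul, norm_smul, norm_inv, norm_norm, Real.log_mul
            (inv_ne_zero (norm_ne_zero_iff.2 (pt_ne_zero μ)))
            (norm_ne_zero_iff.2 (ac_ne_zero _ (pt_ne_zero μ))), Real.log_inv]
          ring
        rw [h6] at h5
        have e : t * (Real.log (nm (ι (ν⁻¹ * μ))) - 2 * L k)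
            - (t * (Real.log (nm (ι μ)) - 2 * L k)
              + t * (Real.log ‖ac (ι ν⁻¹) (pt μ)‖ - Real.log ‖pt μ‖))
            = t * (Real.log (nm (ι (ν⁻¹ * μ))) - Real.log (nm (ι μ))
              - (Real.log ‖ac (ι ν⁻¹) (pt μ)‖ - Real.log ‖pt μ‖)) := by ring
        rw [e, abs_mul]
        refine (mul_le_mul_of_nonneg_left h5 (abs_nonneg t)).trans ?_
        rw [← mul_div_assoc, div_le_iff₀ (by positivity)]
        nlinarith [abs_nonneg t]
    rw [_root_.zero_apply, tendsto_zero_iff_norm_tendsto_zero]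
    refine squeeze_zero (fun _ => norm_nonneg _) (fun k => ?_)
      (tendsto_zero_iff_norm_tendsto_zero.1 h3)
    have b1 : BM fun μ => F t k (ν⁻¹ * μ) := bm_Γ fun μ => nF t k _
    have b2 : BM fun μ => F t k μ * cz (ι ν⁻¹) t (pt μ) :=
      (bF t k).mul ((bm_cz _ _).comp measurable_from_top)
    rw [← σ_sub, norm_σ_apply, ← mP_E, ← POVM.E_sub _ b1 b2, mP_E]
    exact I.norm_m_apply_le _ _

/-- the one parameter group -/
theorem IsPro.exists_group (h : I.IsPro Φ) {T : ℝ → K →L[ℂ] K} (h0 : T 0 = 1)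
    (hc : ∀ η, Continuous fun t => T t η) (hT : ∀ t, T t ∈ I.Int Φ t) :
    ∃ v : ℝ → K →L[ℂ] K, v 0 = 1 ∧ (∀ s t, v (s + t) = v s * v t) ∧ (∀ t η, ‖v t η‖ = ‖η‖) ∧
      (∀ η, Continuous fun t => v t η) ∧ (∀ t, v t ∈ I.Int Φ t) ∧
      (∀ t, v t ∈ unitary (K →L[ℂ] K)) ∧
      ∃ t₁ > (0 : ℝ), ∀ t, |t| < t₁ → ∃ c : ℂ, c ≠ 0 ∧ T t = c • v t := by
  have := I.nontrivial
  have hξ : ‖I.ξ‖ ≠ 0 := norm_ne_zero_iff.2 I.ξ_ne
  have hn : Continuous fun t => ‖T t‖ := by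
    have e : (fun t => ‖T t‖) = fun t => ‖T t I.ξ‖ / ‖I.ξ‖ := funext fun t => by
      rw [h.int_norm (hT t), mul_div_cancel_right₀ _ hξ]
    rw [e]
    exact (hc I.ξ).norm.div_const _
  have hpos : ∀ᶠ t in 𝓝 (0 : ℝ), 0 < ‖T t‖ :=
    (hn.tendsto 0).eventually (lt_mem_nhds (by rw [h0, norm_one]; exact one_pos))
  obtain ⟨t₀, ht₀, hball⟩ := Metric.eventually_nhds_iff.1 hpos
  have hne : ∀ t, |t| < t₀ → T t ≠ 0 := fun t ht =>
    norm_pos_iff.1 (hball (by rwa [Real.dist_eq, sub_zero]))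
  have hu : ∀ t, (‖T t‖ : ℂ)⁻¹ • T t ∈ I.Int Φ t := fun t => h.int_smul (hT t) _
  obtain ⟨v, t₁, ht₁, ht₁', v0, vadd, vn, vc, hv⟩ := bargmann ht₀ (fun t => (‖T t‖ : ℂ)⁻¹ • T t)
    (by simp [h0]) (fun t ht => h.int_unit (hT t) (hne t ht))
    (fun η => by
      simp only [_root_.smul_apply]
      refine ContinuousOn.smul (ContinuousOn.inv₀ ?_ fun t ht => ?_) (hc η).continuousOn
      · exact (Complex.continuous_ofReal.comp hn).continuousOn
      · exact_mod_cast norm_ne_zero_iff.2 (hne t (abs_lt.2 ht)))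
    (fun s t hs ht hst => h.int_line (h.int_mul (hu s) (hu t)) (hu (s + t))
      (h.int_unit (hT _) (hne _ hst)))
  have hsmall : ∀ t, |t| < t₁ → v t ∈ I.Int Φ t := fun t ht => by
    obtain ⟨z, -, e⟩ := hv t ht
    rw [e]
    exact h.int_smul (hu t) z
  have hmul : ∀ t, |t| < t₁ → ∀ n : ℕ, v (n * t) ∈ I.Int Φ (n * t) := fun t ht n => by
    induction n with
    | zero => simpa [v0] using h.int_one
    | succ n ih =>
      rw [Nat.cast_succ, add_mul, one_mul, vadd]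
      exact h.int_mul ih (hsmall t ht)
  have hall : ∀ t, v t ∈ I.Int Φ t := fun t => by
    obtain ⟨n, hn⟩ := exists_nat_gt (|t| / t₁)
    have hn0 : (0 : ℝ) < n := lt_of_le_of_lt (by positivity) hn
    have := hmul (t / n) (by
      rw [abs_div, abs_of_pos hn0, div_lt_iff₀ hn0, mul_comm]
      exact (div_lt_iff₀ ht₁).1 hn) n
    rwa [mul_div_cancel₀ _ hn0.ne'] at this
  refine ⟨v, v0, vadd, vn, vc, hall, fun t => ?_, t₁, ht₁, fun t ht => ?_⟩
  · have h1 : ‖v t‖ = 1 := by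
      have := h.int_norm (hall t) I.ξ
      rw [vn] at this
      exact (mul_eq_right₀ hξ).1 this.symm
    have := h.int_unit (hall t) (norm_ne_zero_iff.1 (by rw [h1]; exact _root_.one_ne_zero))
    simpa [h1] using this
  · obtain ⟨z, hz, e⟩ := hv t ht
    have hz0 : z ≠ 0 := norm_ne_zero_iff.1 (by rw [hz]; exact _root_.one_ne_zero)
    have hT0 : (‖T t‖ : ℂ) ≠ 0 := by exact_mod_cast norm_ne_zero_iff.2 (hne t (ht.trans_le ht₁'))
    refine ⟨‖T t‖ * z⁻¹, mul_ne_zero hT0 (inv_ne_zero hz0), ?_⟩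
    rw [e, smul_smul, smul_smul, mul_assoc _ z⁻¹, inv_mul_cancel₀ hz0, mul_one,
      mul_inv_cancel₀ hT0, one_smul]

/-- the parabolic acts on the group by a character that only depends on the eigenvalue -/
theorem IsPro.exists_sc (h : I.IsPro Φ) {v : ℝ → K →L[ℂ] K} (h0 : v 0 = 1)
    (hadd : ∀ s t, v (s + t) = v s * v t) (hc : ∀ η, Continuous fun t => v t η)
    (hv : ∀ t, v t ∈ I.Int Φ t) (hu : ∀ t, v t ∈ unitary (K →L[ℂ] K)) :
    ∃ sc : ℝ → ℝ, (∀ z, z ≠ 0 → 0 < sc z) ∧ (∀ z w, z ≠ 0 → w ≠ 0 → sc (z * w) = sc z * sc w) ∧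
      ∀ (q : G) (z : ℝ), ac q (ev 0) = z • ev 0 → ∀ t,
        I.U q * v t * I.U q⁻¹ = ex (t * Real.log (sc z)) • v t := by
  have hξ : ‖I.ξ‖ ≠ 0 := norm_ne_zero_iff.2 I.ξ_ne
  have vn : ∀ t η, ‖v t η‖ = ‖η‖ := fun t => ContinuousLinearMap.norm_map_of_mem_unitary (hu t)
  have vne : ∀ t, v t ≠ 0 := fun t e => hξ (by rw [← vn t, e, _root_.zero_apply, norm_zero])
  let Pr : G → ℝ → Prop := fun q l => ∀ t, I.U q * v t * I.U q⁻¹ = ex (l * t) • v t
  have uniq : ∀ q l l', Pr q l → Pr q l' → l = l' := fun q l l' h1 h2 =>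
    ex_inj fun t => smul_left_injective ℂ (vne t) ((h1 t).symm.trans (h2 t))
  have one : Pr 1 0 := fun t => by simp
  have mul : ∀ q q' l l', Pr q l → Pr q' l' → Pr (q * q') (l + l') := fun q q' l l' h1 h2 t => by
    have e : I.U (q * q') * v t * I.U (q * q')⁻¹ = I.U q * (I.U q' * v t * I.U q'⁻¹) * I.U q⁻¹ := by
      simp only [_root_.mul_inv_rev, map_mul, mul_assoc]
    rw [e, h2, mul_smul_comm, smul_mul_assoc, h1, smul_smul, ← ex_add, add_mul, add_comm]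
  have ex1 : ∀ q z, ac q (ev 0) = z • ev 0 → ∃ l, Pr q l := fun q z hq => by
    choose χ hχ using fun t => h.int_line (h.int_conj (hv t) hq) (hv t) (hu t)
    have hχ' : ∀ t, χ t = ⟪v t I.ξ, I.U q (v t (I.U q⁻¹ I.ξ))⟫_ℂ / ((‖I.ξ‖ : ℂ) ^ 2) := fun t => by
      have e : I.U q (v t (I.U q⁻¹ I.ξ)) = χ t • v t I.ξ :=
        congrArg (fun A : K →L[ℂ] K => A I.ξ) (hχ t)
      rw [e, inner_smul_right, inner_self_eq_norm_sq_to_K, vn]
      exact (mul_div_cancel_right₀ _ (pow_ne_zero 2 (Complex.ofReal_ne_zero.2 hξ))).symm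
    obtain ⟨l, hl⟩ := exists_char (χ := χ)
      (by
        rw [funext hχ']
        exact ((hc _).inner ((I.U q).continuous.comp (hc _))).div_const _)
      (fun s t => smul_left_injective ℂ (vne (s + t)) (by
        have e : I.U q * (v s * v t) * I.U q⁻¹
            = (I.U q * v s * I.U q⁻¹) * (I.U q * v t * I.U q⁻¹) := by
          simp only [mul_assoc]
          rw [← mul_assoc (I.U q⁻¹), URep.inv_mul_self, one_mul]
        simp only
        rw [← hχ, hadd, e, hχ, hχ, smul_mul_assoc, mul_smul_comm, smul_smul]))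
      (fun t => by
        have e : I.U q (v t (I.U q⁻¹ I.ξ)) = χ t • v t I.ξ :=
          congrArg (fun A : K →L[ℂ] K => A I.ξ) (hχ t)
        have e' := congrArg norm e
        rw [URep.norm_map, vn, URep.norm_map, norm_smul, vn] at e'
        exact (mul_eq_right₀ hξ).1 e'.symm)
    exact ⟨l, fun t => by rw [hχ, hl]⟩
  have inv : ∀ q z l, ac q (ev 0) = z • ev 0 → Pr q l → Pr q⁻¹ (-l) := fun q z l hq h1 => by
    have hz := ne_zero_of_ev0 hq
    have hq' : ac q⁻¹ (ev 0) = z⁻¹ • ev 0 := by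
      rw [← ac_inv_ac q (z⁻¹ • ev 0), ac_smul, hq, smul_smul, inv_mul_cancel₀ hz, one_smul]
    obtain ⟨l', h2⟩ := ex1 _ _ hq'
    have h3 := mul _ _ _ _ h1 h2
    rw [mul_inv_cancel] at h3
    rwa [eq_neg_of_add_eq_zero_right (uniq _ _ _ h3 one)] at h2
  have htv : ∀ (i k : Fin 3) (hik : i ≠ k) (b : ℝ), k ≠ 0 → Pr (tv hik b) 0 := fun i k hik b hk => by
    have hq : ac (tv hik b) (ev 0) = (1 : ℝ) • ev 0 := by
      rw [ac_tv]; simp [ev, hk]
    obtain ⟨l, h1⟩ := ex1 _ _ hq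
    obtain ⟨a, c, hd⟩ := exists_dg_two hik
    obtain ⟨m, h2⟩ := ex1 _ _ (ac_dg_ev0 a c)
    have h3 := mul _ _ _ _ (mul _ _ _ _ h2 h1) (inv _ _ _ (ac_dg_ev0 a c) h2)
    rw [dg_conj_tv, hd, two_mul, tv_add] at h3
    have h4 := uniq _ _ _ h3 (mul _ _ _ _ h1 h1)
    have h5 : l = 0 := by linarith
    rwa [h5] at h1
  have stab : ∀ q, ac q (ev 0) = ev 0 → Pr q 0 := fun q hq =>
    stab_induction (fun g => Pr g 0) one (fun g g' h1 h2 => by simpa using mul _ _ _ _ h1 h2) htv hq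
  have ex2 : ∀ z : ℝ, ∃ l, ∀ q, ac q (ev 0) = z • ev 0 → Pr q l := fun z => by
    by_cases hz : ∃ q, ac q (ev 0) = z • ev 0
    · obtain ⟨q₀, hq₀⟩ := hz
      obtain ⟨l, hl⟩ := ex1 _ _ hq₀
      refine ⟨l, fun q hq => ?_⟩
      have h1 := mul _ _ _ _ hl (stab (q₀⁻¹ * q) (by rw [ac_mul, hq, ← hq₀, ac_inv_ac]))
      rwa [mul_inv_cancel_left, add_zero] at h1
    · exact ⟨0, fun q hq => (hz ⟨q, hq⟩).elim⟩
  choose lam hlam using ex2
  refine ⟨fun z => Real.exp (lam z), fun z _ => Real.exp_pos _, fun z w hz hw => ?_,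
    fun q z hq t => ?_⟩
  · obtain ⟨q, hq⟩ := exists_ac_ev (smul_ne_zero hz (ev_ne_zero 0)) 0
    obtain ⟨q', hq'⟩ := exists_ac_ev (smul_ne_zero hw (ev_ne_zero 0)) 0
    have h1 : ac (q * q') (ev 0) = (z * w) • ev 0 := by
      rw [ac_mul, hq', ac_smul, hq, smul_smul, mul_comm]
    simp only
    rw [← Real.exp_add, uniq _ _ _ (hlam _ _ h1) (mul _ _ _ _ (hlam _ _ hq) (hlam _ _ hq'))]
  · rw [Real.log_exp, mul_comm t]
    exact hlam z q hq t

end Ind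

end Crest.Agent.N111
end

-- ▼ part N111/D/Pvm
section

/-! # Row 111: the boundary POVMs are PVMs; `ProStmt` (fill the proofs IN PLACE). -/

set_option autoImplicit false
set_option linter.unusedSectionVars false
set_option linter.unusedVariables false

namespace Crest.Agent.N111

open MeasureTheory Topology Filter Matrix
open scoped InnerProductSpace

variable {K : Type} [NormedAddCommGroup K] [InnerProductSpace ℂ K] [CompleteSpace K]

/-- PVMs are extremal -/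
theorem POVM.eq_of_mid {Y : Type} [MeasurableSpace Y] {M P Q : POVM Y K} (hM : M.IsPVM)
    (h : ∀ f, BM f → M.E f = (1 / 2 : ℂ) • (P.E f + Q.E f)) {f : Y → ℂ} (hf : BM f) :
    P.E f = Q.E f := by
  ext η
  have e1 := hM.norm_E_sq hf η
  have e2 := M.inner_ofReal hf.normSq η
  rw [h _ hf.normSq, _root_.smul_apply, _root_.add_apply,
    inner_smul_right, inner_add_right, P.inner_ofReal hf.normSq, Q.inner_ofReal hf.normSq] at e2
  have e3 : (1 / 2 : ℝ) * (∫ y, ‖f y‖ ^ 2 ∂P.ν η + ∫ y, ‖f y‖ ^ 2 ∂Q.ν η)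
      = ∫ y, ‖f y‖ ^ 2 ∂M.ν η := by
    apply Complex.ofReal_injective
    rw [← e2]
    push_cast
    ring
  have hP := P.norm_E_sq_le hf η
  have hQ := Q.norm_E_sq_le hf η
  rw [h _ hf, _root_.smul_apply, _root_.add_apply, norm_smul] at e1
  have e4 : ‖(1 / 2 : ℂ)‖ = 1 / 2 := by simp
  rw [e4] at e1
  have e5 := parallelogram_law_with_norm ℂ (P.E f η) (Q.E f η)
  have e6 : ‖P.E f η - Q.E f η‖ * ‖P.E f η - Q.E f η‖ ≤ 0 := by nlinarith
  exact sub_eq_zero.1 (norm_eq_zero.1 (mul_self_eq_zero.1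
    (le_antisymm e6 (mul_self_nonneg _))))

namespace Ind

variable {I I' : Ind K} {L : ℕ → ℝ} {Φ Ψ : V → POVM V K}

/-- incidence for one flag gives incidence for all flags -/
theorem Pre.inc_all (hd : I.IsDual I') (hΦ : I.Pre Φ) (hΨ : I'.Pre Ψ)
    (h : Inc (Φ (ev 0)) (Ψ (ev 2))) {x y : V} (hx : x ≠ 0) (hy : y ≠ 0) (hxy : x ⬝ᵥ y = 0) :
    Inc (Φ x) (Ψ y) := by
  obtain ⟨g, rfl, rfl⟩ := exists_ac_flag hx hy hxy
  refine h.conj (I.U.mem_unitary g) (fun f hf => ?_) fun f hf => ?_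
  · rw [URep.star_apply, hΦ.covU _ (ev_ne_zero 0) f hf]
  · rw [URep.star_apply, ← hΨ.covU _ (ev_ne_zero 2) f hf, hd.U_eq, hd.U_eq, map_inv dl, dl_dl]

theorem Pre.isPVM (hd : I.IsDual I') (hΦ : I.Pre Φ) (hΨ : I'.Pre Ψ)
    (h : Inc (Φ (ev 0)) (Ψ (ev 2))) {x : V} (hx : x ≠ 0) : (Φ x).IsPVM := by
  obtain ⟨g, rfl⟩ := exists_ac_ev hx 0
  have hy : ∀ i, ac (dl g) (ev i) ≠ 0 := fun i => ac_ne_zero _ (ev_ne_zero i)
  have hi : ∀ i : Fin 3, (0 : Fin 3) ≠ i → Inc (Φ (ac g (ev 0))) (Ψ (ac (dl g) (ev i))) :=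
    fun i h0 => hΦ.inc_all hd hΨ h hx (hy i) (by rw [ac_dot_ac_dl, ev_dot_ev, if_neg h0])
  have hP := (hΦ.cov _ hx).proj
  have key : ∀ u v, BM u → Hom0 u → BM v → (Φ (ac g (ev 0))).E (fun a => u a * v a)
      = (Φ (ac g (ev 0))).E u * (Φ (ac g (ev 0))).E v := by
    intro u v hu hu0 hv
    refine sub_eq_zero.1 (hΨ.eq_zero_of_sub (x := ac (dl g) (ev 1)) (x' := ac (dl g) (ev 2))
      ?_ fun k hk _ => ?_)
    · rw [ac_cross, Geo2.ev12]
      exact ac_ne_zero _ (ev_ne_zero 0)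
    · have e := fun {w : V → ℂ} (hw : BM w) => Inc.inter hP hP (hΨ.cov _ (hy 1)).proj
        (hΨ.cov _ (hy 2)).proj (hi 1 (by decide)) (hi 2 (by decide)) (hi 1 (by decide))
        (hi 2 (by decide)) hk hu hu0 (BM.const 1) hw
      have e1 := e (BM.const 1)
      have e2 := e hv
      simp only [mul_one, POVM.E_one, one_mul] at e1 e2
      rw [mul_sub, ← e2, ← mul_assoc, ← e1, sub_self]
  intro f k hf hk
  have hm : Measurable fun a : V => sg (nrm a) := measurable_sg.comp measurable_nrm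
  rw [hP.conc _ (hf.mul hk), hP.conc _ hf, hP.conc _ hk]
  exact key _ _ (hf.comp hm) (hom0_sg_nrm f) (hk.comp hm)

/-- limits along the flow are incident to the line `ev 2` -/
theorem IsLim.inc_ev2 {l : Filter ℕ} [l.NeBot] {P : POVM V K} (h : I.IsLim l P) (hl : l ≤ atTop)
    (hd : I.IsDual I') (hL : I.Tight L) (hΨ : I'.Pre Ψ) : Inc P (Ψ (ev 2)) := by
  have h01 : (0 : Fin 3) ≠ 1 := by decide
  refine h.inc hl hd hL (hΨ.cov _ (ev_ne_zero 2)) (fun f hf k => ?_) h01 fun f hf b => ?_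
  · rw [hd.symm.U_eq, dl_al]
    exact hΨ.commute (ev_ne_zero 2) (ac_al_of _ (by simp [ev])) hf
  · rw [hd.symm.U_eq, dl_tv]
    exact hΨ.commute (z := 1) (ev_ne_zero 2) (by rw [ac_tv]; simp [ev]) hf

variable (I) in
/-- covariant, invariant under the stabiliser of the point `ev 0`, incident to `Gm` -/
structure Good (Gm P : POVM V K) : Prop where
  cov : I.Cov P
  inv : ∀ (q : G) (z : ℝ), ac q (ev 0) = z • ev 0 → ∀ f, BM f → I.U q * P.E f * I.U q⁻¹ = P.E f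
  inc : Inc P Gm

theorem Good.isPVM {P : POVM V K} (h : I.Good (Ψ (ev 2)) P) (hd : I.IsDual I') (hΨ : I'.Pre Ψ) :
    P.IsPVM := by
  obtain ⟨hp, e⟩ := h.cov.pre h.inv
  have := hp.isPVM hd hΨ (h.inc.conj (u := 1) (one_mem _)
    (fun f hf => by rw [star_one, one_mul, mul_one, e f hf])
    fun f hf => by rw [star_one, one_mul, mul_one]) (ev_ne_zero 0)
  intro f k hf hk
  rw [← e _ (hf.mul hk), ← e _ hf, ← e _ hk, this f k hf hk]

theorem Good.mid {Gm M P Q : POVM V K} (hP : I.Good Gm P) (hQ : I.Good Gm Q) (hG : Gm.Proj)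
    (h : ∀ f, M.E f = (1 / 2 : ℂ) • (P.E f + Q.E f)) : I.Good Gm M := by
  have hM : M.Proj := ⟨fun f hf => by rw [h, h, ← hP.cov.proj.conc f hf, ← hQ.cov.proj.conc f hf],
    by rw [h, hP.cov.proj.zero, hQ.cov.proj.zero, add_zero, smul_zero]⟩
  refine ⟨⟨hM, fun f hf a ha => ?_, fun f hf h0 ν => ?_⟩, fun q z hq f hf => ?_,
    inc_of_ni hM hG fun f k hf hf0 _ hk hk0 _ θ hθ hni => ?_⟩
  · rw [h, mul_smul_comm, smul_mul_assoc, mul_add, add_mul, hP.cov.mem f hf a ha,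
      hQ.cov.mem f hf a ha]
  · rw [h, h, mul_smul_comm, smul_mul_assoc, mul_add, add_mul, hP.cov.covρ f hf h0,
      hQ.cov.covρ f hf h0]
  · rw [h, mul_smul_comm, smul_mul_assoc, mul_add, add_mul, hP.inv q z hq f hf,
      hQ.inv q z hq f hf]
  · rw [h, smul_mul_assoc, add_mul, hP.inc.mul_eq_zero hP.cov.proj hG hf hk hf0 hk0 hθ hni,
      hQ.inc.mul_eq_zero hQ.cov.proj hG hf hk hf0 hk0 hθ hni, add_zero, smul_zero]

theorem Good.uniq {P Q : POVM V K} (hP : I.Good (Ψ (ev 2)) P) (hQ : I.Good (Ψ (ev 2)) Q)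
    (hd : I.IsDual I') (hΨ : I'.Pre Ψ) {f : V → ℂ} (hf : BM f) : P.E f = Q.E f := by
  obtain ⟨M, hM⟩ := P.exists_mid Q
  exact POVM.eq_of_mid ((hP.mid hQ (hΨ.cov _ (ev_ne_zero 2)).proj hM).isPVM hd hΨ)
    (fun f _ => hM f) hf

theorem IsLim.good {l : Filter ℕ} [l.NeBot] {P : POVM V K} (h : I.IsLim l P) (hl : l ≤ atTop)
    (hd : I.IsDual I') (hL : I.Tight L) (hΨ : I'.Pre Ψ) : I.Good (Ψ (ev 2)) P :=
  ⟨h.cov hl hL, h.inv hl hL, h.inc_ev2 hl hd hL hΨ⟩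

/-- existence of the boundary PVM, given any covariant family of lines -/
theorem exists_isPro (hd : I.IsDual I') (hL : I.Tight L) (hΨ : I'.Pre Ψ) : ∃ Φ, I.IsPro Φ := by
  obtain ⟨P, hP⟩ := I.exists_isLim (Ultrafilter.of atTop)
  have hg := hP.good (Ultrafilter.of_le _) hd hL hΨ
  have hp := hg.isPVM hd hΨ
  have hlim : I.IsLim atTop P := ⟨hP.proj, fun f hf h0 hc w v =>
    (tendsto_iff_ultrafilter _ _ _).2 fun l hl => by
      obtain ⟨Q, hQ⟩ := I.exists_isLim l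
      rw [hg.uniq (hQ.good hl hd hL hΨ) hd hΨ hf]
      exact hQ.lim f hf h0 hc w v⟩
  obtain ⟨hpre, e⟩ := hg.cov.pre hg.inv
  refine ⟨I.fam P, fun x => hp.conj _ _ (I.U.mem_unitary _).1,
    fun x => (hP.proj.conj _ _).conc, fun x => (hP.proj.conj _ _).zero, hpre.covU, hpre.scal,
    fun x hx => (hpre.cov x hx).covρ, fun S hS f hf => ?_, fun f hf h0 hc η => ?_⟩
  · rw [e f hf]
    exact hlim.gen le_rfl hS hf
  · rw [e f hf]
    exact hlim.strong hp hf h0 hc η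

end Ind

theorem pro : ProStmt := by
  intro K _ _ _ I I' L hd hL hL'
  obtain ⟨P, hP⟩ := I'.exists_isLim (Ultrafilter.of atTop)
  obtain ⟨Φ, hΦ⟩ := Ind.exists_isPro hd hL ((hP.cov (Ultrafilter.of_le _) hL').pre
    (hP.inv (Ultrafilter.of_le _) hL')).1
  obtain ⟨Ψ, hΨ⟩ := Ind.exists_isPro hd.symm hL' hΦ.pre
  have h := fun {x y : V} => hΦ.pre.inc_all (x := x) (y := y) hd hΨ.pre
    (hΦ.isLim.inc_ev2 le_rfl hd hL hΨ.pre)
  exact ⟨Φ, Ψ, hΦ, hΨ, fun x y hx hy hxy => h hx hy hxy, fun x y hx hy hxy f k hf hk =>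
    (h hx hy hxy).commute (hΦ.proj x) (hΨ.proj y) (hΦ.pvm x) hf hk⟩

end Crest.Agent.N111
end

-- ▼ part N111/E/Lift

/-! # Row 111: `LiftStmt` and `LiftCommStmt` (fill the proofs IN PLACE). -/

set_option autoImplicit false
set_option linter.unusedSectionVars false
set_option linter.unusedVariables false

namespace Crest.Agent.N111

open MeasureTheory Topology Filter Matrix
open scoped InnerProductSpace

variable {K : Type} [NormedAddCommGroup K] [InnerProductSpace ℂ K] [CompleteSpace K]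

namespace LiftH

/-- polar coordinates -/
noncomputable def pol (z : V × ℝ) : V := Real.exp z.2 • sg (nrm z.1)

lemma measurable_pol : Measurable pol := by
  unfold pol
  fun_prop

lemma norm_sg (a : V) : ‖sg a‖ = ‖a‖ := by
  rcases sg_eq a with h | h <;> rw [h]
  exact norm_neg a

lemma sg_pol (z : V × ℝ) : sg (pol z) = pol z := by
  rw [pol, sg_smul (Real.exp_pos _), sg_sg]

lemma nrm_pol (z : V × ℝ) : nrm (pol z) = sg (nrm z.1) := by
  rw [pol, nrm_smul (Real.exp_pos _)]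
  rcases sg_eq (nrm z.1) with h | h <;> rw [h]
  · exact nrm_nrm _
  · rw [nrm_neg, nrm_nrm]

lemma norm_pol {z : V × ℝ} (h : z.1 ≠ 0) : ‖pol z‖ = Real.exp z.2 := by
  rw [pol, norm_smul, norm_sg, norm_nrm h, mul_one, Real.norm_of_nonneg (Real.exp_pos _).le]

lemma ic_pol (z : V × ℝ) : ic {0} (pol z) = ic {0} z.1 := by
  by_cases h : z.1 = 0
  · have : pol z = 0 := by
      rw [pol, h, nrm_zero, ← norm_eq_zero, norm_smul, norm_sg, norm_zero, mul_zero]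
    rw [this, h]
  · have : pol z ≠ 0 := by
      rw [← norm_ne_zero_iff, norm_pol h]
      exact (Real.exp_pos _).ne'
    rw [ic_of_notMem (O := {0}) this, ic_of_notMem (O := {0}) h]

lemma bm_ic0 : BM (ic ({0} : Set V)) := BM.ic (measurableSet_singleton 0)

section
variable {A : Type*} [Group A] (U : URep A K)

lemma uconj_mul (g : A) (S T : K →L[ℂ] K) :
    U g * (S * T) * U g⁻¹ = U g * S * U g⁻¹ * (U g * T * U g⁻¹) := by
  simp only [mul_assoc]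
  rw [← mul_assoc (U g⁻¹), URep.inv_mul_self, one_mul]

lemma uconj_star (g : A) (S : K →L[ℂ] K) : U g * star S * U g⁻¹ = star (U g * S * U g⁻¹) := by
  simp only [star_mul, URep.star_apply, inv_inv, mul_assoc]

lemma uconj_conj (g h : A) (T : K →L[ℂ] K) :
    U g * (U h * T * U h⁻¹) * U g⁻¹ = U (g * h) * T * U (g * h)⁻¹ := by
  simp only [_root_.mul_inv_rev, map_mul, mul_assoc]

lemma uconj_eq {g : A} {T : K →L[ℂ] K} (h : Commute T (U g)) : U g * T * U g⁻¹ = T := by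
  rw [← h.eq, mul_assoc, URep.mul_inv_self, mul_one]

lemma commute_of_conj {g : A} {T : K →L[ℂ] K} (h : U g * T * U g⁻¹ = T) : Commute T (U g) := by
  have := congrArg (· * U g) h
  simp only [mul_assoc, URep.inv_mul_self, mul_one] at this
  exact this.symm

lemma commute_conj (g : A) {S T : K →L[ℂ] K} (h : Commute S T) :
    Commute (U g * S * U g⁻¹) (U g * T * U g⁻¹) := by
  rw [Commute, SemiconjBy, ← uconj_mul, ← uconj_mul, h.eq]

end

/-- an operator commuting with a one parameter group near the origin commutes with it -/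
lemma commute_group {v : ℝ → K →L[ℂ] K} (h0 : v 0 = 1) (hadd : ∀ s t, v (s + t) = v s * v t)
    {S : K →L[ℂ] K} {t₁ : ℝ} (ht₁ : 0 < t₁) (h : ∀ t, |t| < t₁ → Commute S (v t)) (t : ℝ) :
    Commute S (v t) := by
  obtain ⟨n, hn⟩ := exists_nat_gt (|t| / t₁)
  have hn0 : (0 : ℝ) < n := (div_nonneg (abs_nonneg t) ht₁.le).trans_lt hn
  have key : ∀ m : ℕ, Commute S (v (m * (t / n))) := fun m => by
    induction m with
    | zero => rw [Nat.cast_zero, zero_mul, h0]; exact Commute.one_right S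
    | succ m ih =>
      rw [Nat.cast_succ, add_mul, one_mul, hadd]
      refine ih.mul_right (h _ ?_)
      rw [abs_div, abs_of_pos hn0, div_lt_iff₀ hn0, mul_comm]
      exact (div_lt_iff₀ ht₁).1 hn
  have := key n
  rwa [mul_div_cancel₀ _ hn0.ne'] at this

/-- the data of the lift at the base point -/
structure Base (P A : POVM V K) (v : ℝ → K →L[ℂ] K) : Prop where
  pvm : A.IsPVM
  sym : A.Sym
  proj : ∀ f, BM f → P.E f = A.E fun a => f (nrm a)
  lg : ∀ t, A.E (lg t) = v t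

namespace Base

variable {P A : POVM V K} {v : ℝ → K →L[ℂ] K} (h : Base P A v) {f : V → ℂ}
include h

lemma hom0 (hf : BM f) (h0 : Hom0 f) : A.E f = P.E f := by
  rw [h.proj f hf, funext h0.nrm]

lemma mul_lg (hf : BM f) (h0 : Hom0 f) (t : ℝ) :
    A.E (fun a => f a * N111.lg t a) = P.E f * v t := by
  rw [h.pvm _ _ hf (bm_lg t), h.hom0 hf h0, h.lg]

lemma commute {S : K →L[ℂ] K} (hP : ∀ f, BM f → Commute S (P.E f)) (hv : ∀ t, Commute S (v t))
    (hf : BM f) : Commute S (A.E f) := by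
  refine h.sym.commute (fun f hf he => ?_) hf
  have := (A.isPoly1.mul S 1).ext_lift (A.isPoly1.mul 1 S) (by simp only [h.sym.zero, mul_zero, zero_mul])
    (fun f hf h0 t => by
      rw [h.mul_lg hf h0, mul_one, one_mul]
      exact ((hP f hf).mul_right (hv t)).eq) f hf he
  rwa [mul_one, one_mul] at this

/-- scaling -/
lemma conj_smul {S S' : K →L[ℂ] K} {r : ℝ} (hr : 0 < r)
    (e : ∀ f, BM f → ∀ t, S * (P.E f * v t) * S' = ex (t * Real.log r) • (P.E f * v t))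
    (hf : BM f) : S * A.E f * S' = A.E fun a => f (r • a) := by
  have hm : Measurable fun a : V => r • a := by fun_prop
  have key := (A.isPoly1.mul S S').ext_lift (A.isPoly1.comp hm (BM.const 1)) (by
      have : (fun a : V => 1 * ic ({0} : Set V) (r • a)) = ic {0} := funext fun a => by
        by_cases ha : a = 0
        · rw [ha, smul_zero, one_mul]
        · rw [one_mul, ic_of_notMem (O := {0}) ha, ic_of_notMem (O := {0}) (smul_ne_zero hr.ne' ha)]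
      simp only [this, h.sym.zero, mul_zero, zero_mul])
    (fun f hf h0 t => by
      rw [h.mul_lg hf h0, e f hf, ← h.mul_lg hf h0, ← A.E_smul _ (hf.mul (bm_lg t))]
      refine A.E_congr_of_null (measurableSet_singleton 0) h.sym.zero
        ((hf.mul (bm_lg t)).const_mul _) (((hf.mul (bm_lg t)).comp hm).const_mul _) fun a ha => ?_
      beta_reduce
      rw [h0 r hr.ne', lg_smul t hr ha]
      ring)
  rw [h.sym.conc f hf, key _ (hf.comp measurable_sg) fun a => by rw [sg_neg],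
    h.sym.conc _ (hf.comp hm)]
  simp only [one_mul, sg_smul hr]

/-- covariance -/
lemma conj_ac {S S' : K →L[ℂ] K} (g : G)
    (e : ∀ f, BM f → Hom0 f → ∀ t,
      S * (P.E f * v t) * S' = P.E (fun a => f (ac g a)) * (v t * P.E (cz g t)))
    (hf : BM f) (he : Ev f) : S * A.E f * S' = A.E fun a => f (ac g a) := by
  have key := (A.isPoly1.mul S S').ext_lift (A.isPoly1.comp (measurable_ac g) (BM.const 1)) (by
      have : (fun a : V => 1 * ic ({0} : Set V) (ac g a)) = ic {0} := funext fun a => by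
        by_cases ha : a = 0
        · rw [ha, ac_zero, one_mul]
        · rw [one_mul, ic_of_notMem (O := {0}) ha, ic_of_notMem (O := {0}) (ac_ne_zero g ha)]
      simp only [this, h.sym.zero, mul_zero, zero_mul])
    (fun f hf h0 t => by
      have hf' := hf.comp (measurable_ac g)
      rw [h.mul_lg hf h0, e f hf h0, ← h.hom0 hf' (h0.ac g), ← h.hom0 (bm_cz g t) (hom0_cz g t),
        ← h.lg, ← h.pvm _ _ (bm_lg t) (bm_cz g t), ← h.pvm _ _ hf' ((bm_lg t).mul (bm_cz g t))]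
      simp only [one_mul, lg_ac])
  simpa only [one_mul] using key f hf he

end Base

end LiftH

open LiftH

/-- the lifted PVM attached to a projective PVM and a commuting one parameter group -/
theorem exists_lift_pvm {P : POVM V K} (hP : P.Proj) (hp : P.IsPVM) {v : ℝ → K →L[ℂ] K}
    (h0 : v 0 = 1) (hadd : ∀ s t, v (s + t) = v s * v t) (hn : ∀ t η, ‖v t η‖ = ‖η‖)
    (hc : ∀ η, Continuous fun t => v t η) (hcomm : ∀ t f, BM f → Commute (v t) (P.E f)) :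
    ∃ A : POVM V K, A.IsPVM ∧ A.Sym ∧ (∀ f, BM f → P.E f = A.E fun a => f (nrm a)) ∧
      ∀ t, A.E (lg t) = v t := by
  obtain ⟨D, hD, hDv⟩ := POVM.stone v h0 hadd hn hc
  have hPD : ∀ f g, BM f → BM g → Commute (P.E f) (D.E g) := fun f g hf hg => by
    have := (D.isPoly1.mul (P.E f) 1).ext_ex (D.isPoly1.mul 1 (P.E f))
      (fun t => by rw [hDv, mul_one, one_mul, (hcomm t f hf).eq]) g hg
    rwa [mul_one, one_mul] at this
  obtain ⟨J, hJ, hJE⟩ := POVM.exists_joint hp hD hPD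
  have h1 : ∀ f, BM f → J.E (fun z => f z.1) = P.E f := fun f hf => by
    have := hJE f (fun _ => 1) hf (BM.const 1)
    rwa [D.E_one, mul_one, funext fun z : V × ℝ => mul_one (f z.1)] at this
  refine ⟨J.map pol measurable_pol, hJ.map _ _, ⟨fun f hf => ?_, ?_⟩, fun f hf => ?_, fun t => ?_⟩
  · simp only [POVM.map_E, sg_pol]
  · simp only [POVM.map_E, ic_pol]
    rw [h1 _ bm_ic0, hP.zero]
  · simp only [POVM.map_E, nrm_pol]
    rw [h1 (fun a => f (sg (nrm a))) (hf.comp (measurable_sg.comp measurable_nrm)), ← hP.conc f hf]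
  · have h2 := hJE (fun _ => 1) (fun l => ex (t * l)) (BM.const 1) (BM.ex (by fun_prop))
    rw [P.E_one, one_mul, hDv] at h2
    rw [POVM.map_E, ← h2]
    refine J.E_congr_of_null (O := Prod.fst ⁻¹' {0}) (measurable_fst (measurableSet_singleton 0)) ?_
      ((bm_lg t).comp measurable_pol) ((BM.const 1).mul (BM.ex (by fun_prop))) fun z hz => ?_
    · rw [← hP.zero, ← h1 _ bm_ic0]
      rfl
    · rw [lg, norm_pol hz, Real.log_exp, one_mul]

theorem lift : LiftStmt := by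
  intro K _ _ _ I L Φ hL h
  obtain ⟨T, hT0, hTc, hT⟩ := h.exists_level hL (Ultrafilter.of atTop) (Ultrafilter.of_le _)
  obtain ⟨v, h0, hadd, hn, hc, hv, hu, t₁, ht₁, hTv⟩ := h.exists_group hT0 hTc fun t => (hT t).1
  obtain ⟨sc, sc_pos, sc_mul, hsc⟩ := h.exists_sc h0 hadd hc hv hu
  obtain ⟨A, hA1, hA2, hA3, hA4⟩ := exists_lift_pvm (h.proj (ev 0)) (h.pvm _) h0 hadd hn hc
    fun t => (hv t).2.1
  have hA : Base (Φ (ev 0)) A v := ⟨hA1, hA2, hA3, hA4⟩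
  have sc1 : sc 1 = 1 := by
    have := sc_mul 1 1 one_ne_zero one_ne_zero
    rw [mul_one] at this
    exact (mul_eq_left₀ (sc_pos 1 one_ne_zero).ne').1 this.symm
  have key : ∀ x, x ≠ 0 → ∀ (g : G) (z : ℝ), ac g (ev 0) = z • x → ∀ f, BM f →
      I.U g * A.E f * I.U g⁻¹ = (I.fam A x).E fun a => f (sc z • a) := fun x hx g z hg f hf => by
    have hz : z ≠ 0 := by
      rintro rfl
      exact ac_ne_zero g (ev_ne_zero 0) (by rw [hg, zero_smul])
    have hq : ac ((Ind.gx x)⁻¹ * g) (ev 0) = z • ev 0 := by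
      rw [ac_mul, hg, ac_smul, ← ac_inv_ac (Ind.gx x) (ev 0), Ind.ac_gx hx]
    rw [Ind.fam_E, ← hA.conj_smul (S := I.U ((Ind.gx x)⁻¹ * g)) (S' := I.U ((Ind.gx x)⁻¹ * g)⁻¹)
      (sc_pos z hz) (fun f hf t => ?_) hf, uconj_conj, mul_inv_cancel_left]
    rw [uconj_mul, hsc _ z hq, uconj_eq _ (h.pre.commute (ev_ne_zero 0) hq hf), mul_smul_comm]
  have key1 : ∀ x, x ≠ 0 → ∀ g : G, ac g (ev 0) = x → ∀ f, BM f →
      I.U g * A.E f * I.U g⁻¹ = (I.fam A x).E f := fun x hx g hg f hf => by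
    simpa only [sc1, one_smul] using key x hx g 1 (by rw [hg, one_smul]) f hf
  have key0 : ∀ f, BM f → (I.fam A (ev 0)).E f = A.E f := fun f hf => by
    rw [← key1 _ (ev_ne_zero 0) 1 (ac_one _) f hf, inv_one, map_one, one_mul, mul_one]
  refine ⟨I.fam A, sc, fun x => hA1.conj _ _ (I.U.mem_unitary _).1, fun x => (hA2.conj _ _).conc,
    fun x => (hA2.conj _ _).zero, fun x hx f hf => ?_, fun x hx f hf g => ?_, sc_pos, sc_mul,
    fun x hx z hz f hf => ?_, fun x hx f hf he ν => ?_, fun S hS f hf => ?_,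
    (Ultrafilter.of atTop : Ultrafilter ℕ), inferInstance, Ultrafilter.of_le _, t₁, ht₁, fun t ht => ?_⟩
  · rw [Ind.fam_E, ← hA3 f hf, h.covU _ (ev_ne_zero 0) f hf, Ind.ac_gx hx]
  · rw [Ind.fam_E, uconj_conj, key1 _ (ac_ne_zero g hx) _ (by rw [ac_mul, Ind.ac_gx hx]) f hf]
  · rw [Ind.fam_E, key x hx _ z (Ind.ac_gx (smul_ne_zero hz hx)) f hf]
  · rw [Ind.fam_E, Ind.fam_E, ← hA.conj_ac (S := I.ρ ν) (S' := I.ρ ν⁻¹) (ι ν⁻¹)
      (fun f hf h0 t => by rw [uconj_mul, h.covρ _ (ev_ne_zero 0) f hf h0, (hv t).2.2.1]) hf he]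
    simp only [mul_assoc]
    rw [(I.Uρ _ ν⁻¹).eq, (I.Uρ _ ν).left_comm]
  · rw [key0 f hf]
    refine hA.commute (h.gen S hS) (commute_group h0 hadd ht₁ fun t ht => ?_) hf
    obtain ⟨c, hc0, e⟩ := hTv t ht
    have := (hS _ (hT t).2.1).smul_right c⁻¹
    rwa [e, inv_smul_smul₀ hc0] at this
  · obtain ⟨c, hc0, e⟩ := hTv t ht
    refine ⟨c, hc0, ?_⟩
    have := (hT t).2.2
    rw [e, ← hA4, ← key0 _ (bm_lg t)] at this
    exact this

theorem liftComm : LiftCommStmt := by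
  intro K _ _ _ I I' L Φ Ψ A sc hd hL hL' hΦ hΨ hi hA
  have e12 : ev 1 ⬝ᵥ ev 2 = 0 := by rw [ev_dot_ev]; rfl
  have e02 : ev 0 ⬝ᵥ ev 2 = 0 := by rw [ev_dot_ev]; rfl
  have covΨ : ∀ y, y ≠ 0 → ∀ h, BM h → ∀ g,
      I.U g * (Ψ y).E h * I.U g⁻¹ = (Ψ (ac (dl g) y)).E h := fun y hy h hh g => by
    rw [← hΨ.covU y hy h hh, hd.U_eq, hd.U_eq, map_inv dl, dl_dl]
  have base : ∀ t h, BM h → Commute ((Ψ (ev 2)).E h) ((A (ev 1)).E (lg t)) := fun t => by
    set v := (A (ev 1)).E (lg t) with hv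
    have hu : v ∈ unitary (K →L[ℂ] K) := hA.lg_unitary _ t
    let G' := (Ψ (ev 2)).conj (star v) (by rw [star_star]; exact hu.1)
    have hG : ∀ h, G'.E h = star v * (Ψ (ev 2)).E h * v := fun h => by
      rw [POVM.conj_E, star_star]
    have hvN : v ∈ I'.N := by rw [hd.N_eq]; exact hA.mem (ev_ne_zero 1) (bm_lg t)
    have hcov : I'.Cov G' := by
      refine ⟨(hΨ.proj _).conj _ _, fun h hh => ?_, fun h hh h0 ν => ?_⟩
      · rw [hG]
        exact Ind.mul_N (Ind.mul_N (Ind.star_N hvN) (hΨ.mem (ev_ne_zero 2) hh)) hvN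
      · have hc := bm_cz (ι (dl ν)⁻¹) t
        set c := (Φ (ev 1)).E (cz (ι (dl ν)⁻¹) t) with hc'
        have h1 : I'.ρ ν * v * I'.ρ ν⁻¹ = c * v := by
          rw [hd.ρ_eq, hd.ρ_eq, map_inv dl, hA.ρ_lg (ev_ne_zero 1)]
          exact (hA.commute_Φ (ev_ne_zero 1) (bm_lg t) hc).eq
        have hcu : c ∈ unitary (K →L[ℂ] K) := (hΦ.pvm _).ex_mem_unitary (by fun_prop)
        have h2 := (hi.comm _ _ (ev_ne_zero 1) (ev_ne_zero 2) e12 _ _ hc
          (hh.comp (measurable_ac (ι ν⁻¹)))).eq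
        rw [hG, hG, uconj_mul, uconj_mul, uconj_star, h1, hΨ.covρ _ (ev_ne_zero 2) h hh h0, star_mul,
          mul_assoc, mul_assoc, ← mul_assoc _ c, ← h2, mul_assoc, ← mul_assoc (star c), hcu.1,
          one_mul, mul_assoc]
    have inv : ∀ (q : G) (z w : ℝ), ac q (ev 1) = z • ev 1 → ac (dl q) (ev 2) = w • ev 2 →
        ∀ h, BM h → I.U q * G'.E h * I.U q⁻¹ = G'.E h := fun q z w hz hw h hh => by
      have hw0 : w ≠ 0 := by
        rintro rfl
        exact ac_ne_zero _ (ev_ne_zero 2) (by rw [hw, zero_smul])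
      rw [hG, uconj_mul, uconj_mul, uconj_star, hA.conj_lg (ev_ne_zero 1) hz, covΨ _ (ev_ne_zero 2) h hh,
        hw, hΨ.scal _ (ev_ne_zero 2) w hw0 h hh, star_smul, smul_mul_assoc, smul_mul_smul_comm,
        Complex.star_def, conj_ex, ← ex_add, neg_add_cancel, ex_zero, one_smul]
    have h02 : (0 : Fin 3) ≠ 2 := by decide
    have h10 : (1 : Fin 3) ≠ 0 := by decide
    have i0 : Inc (Φ (ev 0)) G' := hΦ.isLim.inc le_rfl hd hL hcov
      (fun h hh k => commute_of_conj _ (inv _ _ _ (ac_al_of _ (by simp [ev]))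
        (by rw [dl_al]; exact ac_al_of _ (by simp [ev])) h hh)) h02
      fun h hh b => commute_of_conj _ (inv _ 1 1 (by rw [ac_tv]; simp [ev])
        (by rw [dl_tv, ac_tv]; simp [ev]) h hh)
    have hq : ac (tv h10 1) (ev 0) = ev 0 + ev 1 := by rw [ac_tv]; simp [ev]
    have i1 : Inc (Φ (ev 0 + ev 1)) G' := i0.conj (I.U.mem_unitary (tv h10 1))
      (fun f hf => by rw [URep.star_apply, hΦ.covU _ (ev_ne_zero 0) f hf, hq])
      fun h hh => by
        rw [URep.star_apply]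
        exact inv _ 1 1 (by rw [ac_tv]; simp [ev]) (by rw [dl_tv, ac_tv]; simp [ev]) h hh
    have hx : ev 0 ⨯₃ (ev 0 + ev 1) ≠ 0 := by
      rw [map_add, cross_self, zero_add, Geo2.ev01]
      exact ev_ne_zero 2
    intro h hh
    have e := hΦ.pre.two hx (hΦ.pvm _) hcov.proj (hΨ.proj (ev 2)) i0
      (hi.inc _ _ (ev_ne_zero 0) (ev_ne_zero 2) e02) i1
      (hi.inc _ _ (hq ▸ ac_ne_zero _ (ev_ne_zero 0)) (ev_ne_zero 2)
        (by rw [add_dotProduct, e02, e12, add_zero])) hh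
    rw [hG] at e
    rw [Commute, SemiconjBy]
    conv_rhs => rw [← e, ← mul_assoc, ← mul_assoc, hu.2, one_mul]
  intro x y hx hy hxy f h hf hh
  obtain ⟨g₀, h₀, h₀'⟩ := exists_ac_flag (ev_ne_zero 1) (ev_ne_zero 2) e12
  obtain ⟨g₁, h₁, h₁'⟩ := exists_ac_flag hx hy hxy
  have e1 : ac (g₁ * g₀⁻¹) (ev 1) = x := by rw [ac_mul, ← h₀, ac_inv_ac, h₁]
  have e2 : ac (dl (g₁ * g₀⁻¹)) (ev 2) = y := by
    rw [map_mul, map_inv, ac_mul]
    conv_lhs => rw [← h₀', ac_inv_ac, h₁']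
  rw [← e1, ← e2, ← hA.covU _ (ev_ne_zero 1) f hf, ← covΨ _ (ev_ne_zero 2) h hh]
  exact commute_conj _ _ (hA.commute_of (ev_ne_zero 1)
    (fun g hg => (hi.comm _ _ (ev_ne_zero 1) (ev_ne_zero 2) e12 g h hg hh).symm)
    (fun t => base t h hh) hf).symm

end Crest.Agent.N111
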